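import Crest.Agent.X212.Crt72.Step
import Crest.Agent.X212.Sard93.Smale
import Crest.Agent.X212.Crt72.GM

-- ▼ part X212/Crt72/Lin
section

/-!
# Row 212, CRIT (helper72): slices, lower bounds, local Sard on the range of a projector
-/

set_option autoImplicit false
set_option linter.unusedSectionVars false
noncomputable section
open Set Filter Topology Function Module
open scoped ContDiff

namespace Crest.Agent.X212.Crt72
open Fred93 Sard93

variable {C L H G Z Y P : Type*} [NormedAddCommGroup C] [NormedSpace ℝ C] [CompleteSpace C]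
  [NormedAddCommGroup L] [NormedSpace ℝ L] [CompleteSpace L]
  [NormedAddCommGroup H] [NormedSpace ℝ H] [CompleteSpace H]
  [NormedAddCommGroup G] [NormedSpace ℝ G] [CompleteSpace G]
  [NormedAddCommGroup Z] [NormedSpace ℝ Z] [CompleteSpace Z]
  [NormedAddCommGroup Y] [NormedSpace ℝ Y] [CompleteSpace Y]
  [NormedAddCommGroup P] [NormedSpace ℝ P] [CompleteSpace P]

/-- points near `0` can be moved into the slice -/
theorem slice {a : L × C → C} {d : L →L[ℝ] C} {σ : C →L[ℝ] H}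
    (ha : HasStrictFDerivAt a (d.coprod (ContinuousLinearMap.id ℝ C)) (0, 0)) (h0 : a (0, 0) = 0)
    (hb : Bijective (σ ∘L d)) {N : Set C} (hN : N ∈ 𝓝 (0 : C)) :
    ∀ᶠ v in 𝓝 (0 : C), ∃ ξ, a (ξ, v) ∈ N ∧ σ (a (ξ, v)) = 0 := by
  let θ' : L × C →L[ℝ] H × C :=
    (σ ∘L d.coprod (ContinuousLinearMap.id ℝ C)).prod (ContinuousLinearMap.snd ℝ L C)
  have hθ : Bijective θ' := by
    constructor
    · rw [injective_iff_map_eq_zero]
      rintro ⟨ξ, v⟩ h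
      obtain ⟨h1, h2⟩ := Prod.mk_eq_zero.1 h
      obtain rfl : v = 0 := h2
      have : ξ = 0 := hb.1 (by simpa using h1)
      simp [this]
    · rintro ⟨w, v⟩
      obtain ⟨ξ, hξ⟩ := hb.2 (w - σ v)
      exact ⟨(ξ, v), Prod.ext (by simpa [θ'] using eq_sub_iff_add_eq.1 hξ) rfl⟩
  let A := ContinuousLinearEquiv.ofBijective θ' (LinearMap.ker_eq_bot.2 hθ.1)
    (LinearMap.range_eq_top.2 hθ.2)
  have h1 : HasStrictFDerivAt (fun q : L × C => (σ (a q), q.2)) (A : L × C →L[ℝ] H × C) (0, 0) :=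
    (σ.hasStrictFDerivAt.comp (0, 0) ha).prodMk hasStrictFDerivAt_snd
  have h2 : a ⁻¹' N ∈ 𝓝 ((0, 0) : L × C) := ha.continuousAt.preimage_mem_nhds (h0.symm ▸ hN)
  have h3 := image_mem_map (m := fun q : L × C => (σ (a q), q.2)) h2
  rw [h1.map_nhds_eq_of_equiv, h0, map_zero] at h3
  filter_upwards [(Continuous.prodMk_right (0 : H)).continuousAt.preimage_mem_nhds h3] with v hv
  obtain ⟨⟨ξ, w⟩, h4, h5⟩ := hv
  obtain ⟨h6, rfl⟩ := Prod.mk.inj h5
  exact ⟨ξ, h4, h6⟩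

theorem cpt_fin {K : Type*} [NormedAddCommGroup K] [NormedSpace ℝ K] [FiniteDimensional ℝ K]
    (A : Z →L[ℝ] K) : IsCompactOperator A := isCompactOperator_of_locallyCompactSpace_dom A

theorem low_of_fr {T : Z →L[ℝ] Y} (hT : T.IsFredholm) (j : C →L[ℝ] Z) (hj : ∀ u, ‖u‖ ≤ ‖j u‖)
    (R : C →L[ℝ] G) (hi : ∀ u, T (j u) = 0 → R u = 0 → u = 0) :
    ∃ c > (0 : ℝ), ∀ u, ‖u‖ ≤ c * ‖((T ∘L j).prod R) u‖ := by
  obtain ⟨π, c, hc, -, h⟩ := exists_est hT
  have : FiniteDimensional ℝ T.ker := hT.finite_ker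
  refine Est.bound_of_inj (K := π ∘L j) (C := c) (fun u => (hj u).trans ((h _).trans ?_))
    (cpt_fin _) ((injective_iff_map_eq_zero _).2 fun u hu =>
      hi u (congrArg Prod.fst hu) (congrArg Prod.snd hu))
  exact mul_le_mul_of_nonneg_left
    (add_le_add (norm_fst_le (((T ∘L j).prod R) u)) le_rfl) hc.le

theorem ev_inj {A : C →L[ℝ] G} {c : ℝ} (hc : 0 < c) (h : ∀ u, ‖u‖ ≤ c * ‖A u‖) :
    ∀ᶠ A' in 𝓝 A, ∀ u, A' u = 0 → u = 0 := by
  filter_upwards [Metric.ball_mem_nhds A (inv_pos.2 hc)] with A' hA u hu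
  rw [mem_ball_iff_norm'] at hA
  by_contra hne
  have h1 : ‖A u‖ ≤ ‖A - A'‖ * ‖u‖ := by simpa [hu] using (A - A').le_opNorm u
  have h2 := norm_pos_iff.2 hne
  have h3 : c * ‖A - A'‖ < 1 := by rwa [← lt_inv_mul_iff₀ hc, mul_one]
  nlinarith [h u, mul_le_mul_of_nonneg_left h1 hc.le]

/-- isolation with parameters -/
theorem eq_of_low {Φ : C × P → Y} {Φ' : C × P →L[ℝ] Y} {p₀ : P}
    (h : HasStrictFDerivAt Φ Φ' (0, p₀)) (h0 : ∀ p, Φ (0, p) = 0) {R : C →L[ℝ] G} {c : ℝ}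
    (hc : 0 < c) (hl : ∀ u, ‖u‖ ≤ c * ‖(Φ' (u, 0), R u)‖) :
    ∀ᶠ z in 𝓝 ((0 : C), p₀), Φ z = 0 → R z.1 = 0 → z.1 = 0 := by
  have h1 := (h.isLittleO.def (show 0 < (2 * c)⁻¹ by positivity))
  have h2 : Tendsto (fun z : C × P => (z, ((0 : C), z.2))) (𝓝 (0, p₀)) (𝓝 ((0, p₀), (0, p₀))) :=
    Continuous.tendsto' (by fun_prop) _ _ rfl
  filter_upwards [h2.eventually h1] with z hz h3 h4
  have e : z - (0, z.2) = (z.1, 0) := by ext <;> simp
  rw [h3, h0, e, sub_self, zero_sub, norm_neg, Prod.norm_mk, norm_zero,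
    max_eq_left (norm_nonneg _)] at hz
  have h5 := hl z.1
  rw [h4, Prod.norm_mk, norm_zero, max_eq_left (norm_nonneg _)] at h5
  have h6 := mul_le_mul_of_nonneg_left hz hc.le
  have h7 : c * ((2 * c)⁻¹ * ‖z.1‖) = ‖z.1‖ / 2 := by field_simp
  exact norm_le_zero_iff.1 (by linarith)

/-- a symmetric operator of index zero -/
structure SY (B : Y →L[ℝ] Z →L[ℝ] ℝ) (ι T : Z →L[ℝ] Y) : Prop where
  symT : ∀ z z', B (T z) z' = B (T z') z
  symι : ∀ z z', B (ι z) z' = B (ι z') z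
  pos : ∀ z, B (ι z) z = 0 → z = 0
  fr : Fr T 0

/-- `∑ ⟨f i, ·⟩ f i` -/
def fk (B : Y →L[ℝ] Z →L[ℝ] ℝ) (ι : Z →L[ℝ] Y) {κ : Type} [Fintype κ] (f : κ → Z) : Z →L[ℝ] Y :=
  ∑ i, (B (ι (f i))).smulRight (ι (f i))

theorem fk_apply (B : Y →L[ℝ] Z →L[ℝ] ℝ) (ι : Z →L[ℝ] Y) {κ : Type} [Fintype κ] (f : κ → Z)
    (z : Z) : fk B ι f z = ι (∑ i, B (ι (f i)) z • f i) := by
  simp [fk, sum_apply, map_sum]

theorem cpt_smulRight (l : Z →L[ℝ] ℝ) (y : Y) : IsCompactOperator (l.smulRight y) :=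
  (cpt_fin l).clm_comp ((ContinuousLinearMap.id ℝ ℝ).smulRight y)

theorem cpt_sum {κ : Type*} (s : Finset κ) {A : κ → Z →L[ℝ] Y}
    (h : ∀ i ∈ s, IsCompactOperator (A i)) : IsCompactOperator (∑ i ∈ s, A i : Z →L[ℝ] Y) :=
  Finset.sum_induction A (fun T : Z →L[ℝ] Y => IsCompactOperator T) (fun _ _ ha hb => ha.add hb)
    isCompactOperator_zero h

theorem cpt_fk (B : Y →L[ℝ] Z →L[ℝ] ℝ) (ι : Z →L[ℝ] Y) {κ : Type} [Fintype κ] (f : κ → Z) :
    IsCompactOperator (fk B ι f) := cpt_sum _ fun _ _ => cpt_smulRight _ _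

namespace SY
variable {B : Y →L[ℝ] Z →L[ℝ] ℝ} {ι T : Z →L[ℝ] Y} (h : SY B ι T)
  {κ : Type} [Fintype κ] {f : κ → Z}
include h

theorem ker_of (hf : ∀ i, T (f i) = 0) {z : Z} (hz : ∀ i, B (T z + fk B ι f z) (f i) = 0) :
    ∀ i, B (ι (f i)) z = 0 := by
  set w := ∑ i, B (ι (f i)) z • f i with hw
  have h1 : ∀ i, B (ι w) (f i) = 0 := fun i => by
    have := hz i
    rwa [map_add, add_apply, h.symT, hf, map_zero, zero_apply, zero_add, fk_apply] at this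
  have h2 : w = 0 := h.pos _ (by
    conv_lhs => rw [hw, map_sum (B _)]
    simp only [map_smul, ← hw, h1, smul_zero, Finset.sum_const_zero])
  have h3 : ∑ i, B (ι (f i)) z * B (ι (f i)) z = B (ι w) z := by simp [hw, map_sum, sum_apply]
  rw [h2, map_zero, map_zero, zero_apply] at h3
  exact fun i => mul_self_eq_zero.1
    ((Finset.sum_eq_zero_iff_of_nonneg fun i _ => mul_self_nonneg _).1 h3 i (Finset.mem_univ i))

theorem bij (hf : ∀ i, T (f i) = 0) (hs : ∀ k, T k = 0 → k ∈ Submodule.span ℝ (range f)) :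
    Bijective (T + fk B ι f) := by
  have hi : Injective (T + fk B ι f) := (injective_iff_map_eq_zero _).2 fun z hz => by
    have h1 := h.ker_of hf (z := z) fun i => by rw [← add_apply, hz]; simp
    have h2 : T z = 0 := by simpa [fk_apply, h1] using hz
    obtain ⟨c, hc⟩ := (Submodule.mem_span_range_iff_exists_fun ℝ).1 (hs z h2)
    refine h.pos z ?_
    conv_lhs => rw [← hc, map_sum ι, map_sum B]
    simp [hc, sum_apply, h1]
  exact ⟨hi, (h.fr.add_compact (cpt_fk B ι f)).surj_of_inj hi⟩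

theorem exists_fam : ∃ (n : ℕ) (b : Fin n → Z), (∀ i, T (b i) = 0) ∧
    ∀ k, T k = 0 → k ∈ Submodule.span ℝ (range b) := by
  have : FiniteDimensional ℝ T.ker := h.fr.1.finite_ker
  refine ⟨_, fun i => Module.finBasis ℝ T.ker i, fun i => (Module.finBasis ℝ T.ker i).2,
    fun k hk => (Submodule.mem_span_range_iff_exists_fun ℝ).2
      ⟨(Module.finBasis ℝ T.ker).repr ⟨k, hk⟩, ?_⟩⟩
  simpa only [map_sum, map_smul, Submodule.subtype_apply] using
    congrArg T.ker.subtype ((Module.finBasis ℝ T.ker).sum_repr ⟨k, hk⟩)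

/-- the range is the annihilator of the kernel -/
theorem mem_range {y : Y} (hy : ∀ k, T k = 0 → B y k = 0) : ∃ z, T z = y := by
  obtain ⟨n, b, h1, h2⟩ := h.exists_fam
  obtain ⟨z, hz⟩ := (h.bij h1 h2).2 y
  have h3 := h.ker_of h1 (z := z) fun i => by rw [← add_apply, hz]; exact hy _ (h1 i)
  exact ⟨z, by simpa [fk_apply, h3] using hz⟩

end SY

/-- a projector which commutes with everything -/
structure PJ (B : Y →L[ℝ] Z →L[ℝ] ℝ) (ι T : Z →L[ℝ] Y) (π : Z →L[ℝ] Z) (π' : Y →L[ℝ] Y) :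
    Prop where
  pp : ∀ z, π (π z) = π z
  T : ∀ z, π' (T z) = T (π z)
  ι : ∀ z, π' (ι z) = ι (π z)
  B : ∀ y z, B (π' y) z = B y (π z)

/-- **Local Sard on the range of a projector.** -/
theorem sard_pj {B : Y →L[ℝ] Z →L[ℝ] ℝ} {ι T : Z →L[ℝ] Y} (h : SY B ι T) {π : Z →L[ℝ] Z}
    {π' : Y →L[ℝ] Y} (hp : PJ B ι T π π') (hp' : ∀ y, π' (π' y) = π' y) {Φ : Z × P → Y}
    (hΦ : ContDiff ℝ ∞ Φ) {p₀ : P} (h0 : Φ (0, p₀) = 0) (hT : dE Φ (0, p₀) = T)
    (hπ : ∀ p, π' (Φ (0, p)) = Φ (0, p))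
    (ho : ∀ k, T k = 0 → π k = k → (∀ c, B (fderiv ℝ Φ (0, p₀) (0, c)) k = 0) → k = 0) :
    ∃ N ∈ 𝓝 ((0 : Z), p₀), ∀ᶠ p in residual P, ∀ z, (z, p) ∈ N → π z = z → Φ (z, p) = 0 →
      ∀ n, π n = n → dE Φ (z, p) n = 0 → n = 0 := by
  obtain ⟨n, b, hb1, hb2⟩ := h.exists_fam
  have hTπ : ∀ k, T k = 0 → T (π k) = 0 := fun k hk => by rw [← hp.T, hk, map_zero]
  let f0 : Fin n → Z := fun i => π (b i)
  let f1 : Fin n → Z := fun i => b i - π (b i)
  let S := T + fk B ι f1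
  let ρ : Z →L[ℝ] Z := ContinuousLinearMap.id ℝ Z - π
  let m : Z × P →L[ℝ] Z × P := π.prodMap (ContinuousLinearMap.id ℝ P)
  let Ψ : Z × P → Y := fun z => Φ (m z) + (S ∘L ρ ∘L ContinuousLinearMap.fst ℝ Z P) z
  have hΨ : ContDiff ℝ ∞ Ψ := (hΦ.comp m.contDiff).add (ContinuousLinearMap.contDiff _)
  have hd : ∀ z, fderiv ℝ Ψ z =
      fderiv ℝ Φ (m z) ∘L m + S ∘L ρ ∘L ContinuousLinearMap.fst ℝ Z P := fun z =>
    (((hΦ.differentiable (by simp) _).hasFDerivAt.comp z m.hasFDerivAt).add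
      (ContinuousLinearMap.hasFDerivAt _)).fderiv
  have hm0 : m (0, p₀) = (0, p₀) := by simp [m]
  have hsp : ∀ z c, fderiv ℝ Φ (0, p₀) (z, c) = T z + fderiv ℝ Φ (0, p₀) (0, c) := fun z c => by
    rw [← hT, dE_apply, ← map_add]; simp
  have hF : Fr (dE Ψ (0, p₀)) 0 :=
    (h.fr.add_compact (T := fk B ι f1 ∘L ρ) ((cpt_fk B ι f1).comp_clm ρ)).congr fun z => by
      rw [dE_apply, hd, hm0]
      simp [m, S, ρ, hsp (π z), Prod.mk_zero_zero]
      abel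
  have hD : ∀ c, π' (fderiv ℝ Φ (0, p₀) (0, c)) = fderiv ℝ Φ (0, p₀) (0, c) := fun c => by
    have h1 : HasFDerivAt (fun p => Φ (0, p)) (fderiv ℝ Φ (0, p₀) ∘L ContinuousLinearMap.inr ℝ Z P)
        p₀ := (hΦ.differentiable (by simp) _).hasFDerivAt.comp p₀ (hasFDerivAt_prodMk_right 0 p₀)
    have h2 := (π'.hasFDerivAt.comp p₀ h1).unique (h1.congr_of_eventuallyEq (.of_forall hπ))
    exact congrArg (fun A : P →L[ℝ] Y => A c) h2
  have hS : Surjective (fderiv ℝ Ψ (0, p₀)) := by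
    intro y
    have hbij := h.bij (f := Sum.elim f0 f1) (by
      rintro (i | i)
      · exact hTπ _ (hb1 i)
      · simp [f1, hb1, hTπ _ (hb1 i)]) fun k hk => Submodule.span_le.2 (by
        rintro _ ⟨i, rfl⟩
        have : b i = Sum.elim f0 f1 (.inl i) + Sum.elim f0 f1 (.inr i) := by simp [f0, f1]
        rw [this]
        exact add_mem (Submodule.subset_span ⟨_, rfl⟩) (Submodule.subset_span ⟨_, rfl⟩)) (hb2 k hk)
    have e : ∀ z, (T + fk B ι (Sum.elim f0 f1)) z = S z + fk B ι f0 z := fun z => by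
      simp [S, fk, Fintype.sum_sum_type]; abel
    have a0 : ∀ i z, B (ι (f0 i)) z = B (ι (f0 i)) (π z) := fun i z => by
      rw [← hp.B, hp.ι, hp.pp]
    have a1 : ∀ i z, B (ι (f1 i)) (π z) = 0 := fun i z => by
      rw [← hp.B, hp.ι]; simp [f1, hp.pp]
    obtain ⟨z1, hz1⟩ := hbij.2 (y - π' y)
    have h1 : π z1 = 0 := hbij.1 (by
      have h2 := congrArg π' hz1
      rw [map_sub, hp', sub_self] at h2
      rw [map_zero, ← h2, e, e]
      simp only [S, add_apply, map_add, fk_apply, hp.T, hp.ι, map_sum π, map_smul, a1, ← a0]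
      simp [f0, f1, hp.pp])
    have h2 : S z1 = y - π' y := by
      rw [← hz1, e, fk_apply]
      simp [fun i => a0 i z1, h1]
    have : FiniteDimensional ℝ T.ker := h.fr.1.finite_ker
    let N0 : Submodule ℝ Z := T.ker ⊓ ρ.ker
    have : FiniteDimensional ℝ N0 := Submodule.finiteDimensional_of_le inf_le_left
    let r : Y →ₗ[ℝ] Dual ℝ N0 := N0.subtype.dualMap ∘ₗ
      ContinuousLinearMap.coeLM ℝ ∘ₗ (B : Y →ₗ[ℝ] Z →L[ℝ] ℝ)
    let Λ : P →ₗ[ℝ] Dual ℝ N0 :=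
      r ∘ₗ (fderiv ℝ Φ (0, p₀) ∘L ContinuousLinearMap.inr ℝ Z P : P →L[ℝ] Y)
    have h3 : Λ.range = ⊤ := by
      rw [← Subspace.dualCoannihilator_dualAnnihilator_eq (W := Λ.range), eq_top_iff,
        ← Submodule.dualAnnihilator_bot]
      refine Submodule.dualAnnihilator_anti fun k hk => Subtype.ext ?_
      exact ho k k.2.1 (sub_eq_zero.1 k.2.2).symm fun c =>
        (Submodule.mem_dualCoannihilator _).1 hk _ ⟨c, rfl⟩
    obtain ⟨c, hc⟩ := LinearMap.range_eq_top.1 h3 (r (π' y))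
    obtain ⟨z0, hz0⟩ := h.mem_range (y := π' y - fderiv ℝ Φ (0, p₀) (0, c)) fun k hk => by
      have h4 := LinearMap.congr_fun hc ⟨π k, hTπ k hk, sub_eq_zero.2 (hp.pp k).symm⟩
      rw [← hp', ← hD, ← map_sub, hp.B, map_sub, sub_apply, sub_eq_zero]
      exact h4.symm
    have h5 : T (π z0) = π' y - fderiv ℝ Φ (0, p₀) (0, c) := by rw [← hp.T, hz0, map_sub, hp', hD]
    refine ⟨(π z0 + z1, c), ?_⟩
    rw [hd, hm0]
    simp [m, ρ, hsp (π z0), hp.pp, h1, h2, h5]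
  obtain ⟨N, hN, hres⟩ := param_loc isOpen_univ hΨ.contDiffOn (mem_univ (0, p₀))
    (by simp [Ψ, hm0, h0]) hF.1 hS
  have hc : Continuous (dE Ψ) := (hΨ.continuous_fderiv (by simp)).clm_comp continuous_const
  refine ⟨_, inter_mem hN (hc.continuousAt.eventually hF.eventually), ?_⟩
  filter_upwards [hres] with p hp1 z hz h1 h2 k h3 h4
  have hm : m (z, p) = (z, p) := by simp [m, h1]
  refine (Fr.inj_of_surj hz.2 (hp1 z hz.1 (by simp [Ψ, hm, h2, ρ, h1]))) ?_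
  rw [map_zero, dE_apply, hd, hm]
  simpa [m, ρ, h3, dE_apply] using h4

end Crest.Agent.X212.Crt72
end
end

-- ▼ part X212/Crt72/Alg

/-!
# Row 212, CRIT (helper72): gradients and Hessians of the perturbations
-/

set_option autoImplicit false
set_option linter.unusedSectionVars false
noncomputable section
open Set Filter Topology Function
open scoped ContDiff InnerProductSpace

namespace Crest.Agent.X212.Crt72.GM
open Fred93 (Fr)

variable {Bc Bw B2 : Type} {Q : GM Bc Bw B2}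

/-- two operators which agree on a dense set -/
theorem ext_dense {U V W : Type*} [TopologicalSpace V] [TopologicalSpace W] [T2Space W] {j : U → V}
    (hj : DenseRange j) {f g : V → W} (hf : Continuous f) (hg : Continuous g)
    (h : ∀ u, f (j u) = g (j u)) (v : V) : f v = g v :=
  congrFun (hj.equalizer hf hg (funext h)) v

variable (Q) in
/-- the pairing of the extended spaces -/
def BB (o : Q.X) : Q.E o × Q.H o →L[ℝ] Q.C o × Q.M o →L[ℝ] ℝ :=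
  (innerSL ℝ : Q.X₀ o →L[ℝ] Q.X₀ o →L[ℝ] ℝ).bilinearComp (Q.j0 o) (Q.i o ∘L Q.j1 o)

variable (Q) in
/-- the inclusion of the extended spaces -/
def ι (o : Q.X) : Q.C o × Q.M o →L[ℝ] Q.E o × Q.H o := (Q.ic o).prodMap (Q.ih o)

theorem BB_apply (o : Q.X) (y z) : Q.BB o y z = ⟪Q.j0 o y, Q.i o (Q.j1 o z)⟫_ℝ := rfl

theorem ext_apply (o : Q.X) (A : Q.C o →L[ℝ] Q.E o) (u m) :
    Q.ext o A (u, m) = (A u + Q.D o m, Q.σ o u) := rfl

theorem dd_apply (o : Q.X) (v η) : Q.dd o v η = Q.d o v η.1 + η.2 • Q.J o v := rfl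

namespace AxOp
variable (A : Q.AxOp)
include A

theorem ij' (o : Q.X) (z) : Q.i o (Q.j1 o z) = Q.j0 o (Q.ι o z) := A.ij o z.1 z.2

theorem split (o : Q.X) (e h) : Q.j0 o (e, h) = Q.j0 o (e, 0) + Q.j0 o (0, h) := by
  rw [← map_add]; simp

theorem pair' (o : Q.X) (e z) : Q.BB o (e, 0) z = Q.b o e z.1 := by
  rw [BB_apply, A.ij o z.1 z.2, A.split o (Q.ic o z.1), inner_add_right, A.orth, add_zero, A.pair]

theorem BB_split (o : Q.X) (e h u m) : Q.BB o (e, h) (u, m) = Q.b o e u + Q.BB o (0, h) (0, m) := by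
  have h1 : ((e, h) : Q.E o × Q.H o) = (e, 0) + (0, h) := by simp
  rw [h1, map_add, add_apply, A.pair', BB_apply, BB_apply, A.ij, A.ij, A.split o (Q.ic o u),
    inner_add_right, real_inner_comm, A.orth, map_zero, zero_add]

theorem denι (o : Q.X) : DenseRange (Q.ι o) := (A.denC o).prodMap (A.denH o)

theorem den (o : Q.X) : DenseRange fun z => Q.i o (Q.j1 o z) := by
  simp only [A.ij']
  exact (A.den0 o).comp (A.denι o) (Q.j0 o).continuous

theorem sepY {o : Q.X} {y} (h : ∀ z, Q.BB o y z = 0) : y = 0 := by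
  refine (injective_iff_map_eq_zero _).1 (A.inj0 o) y (inner_self_eq_zero (𝕜 := ℝ).1 ?_)
  exact ext_dense (A.den o) (f := fun x => ⟪Q.j0 o y, x⟫_ℝ) (g := fun _ => 0) (by fun_prop)
    continuous_const h _

theorem sepE {o : Q.X} {e} (h : ∀ u, Q.b o e u = 0) : e = 0 :=
  congrArg Prod.fst (A.sepY (y := (e, 0)) fun z => (A.pair' o e z).trans (h _))

theorem extE {o : Q.X} {e e'} (h : ∀ u, Q.b o e u = Q.b o e' u) : e = e' :=
  sub_eq_zero.1 (A.sepE fun u => by rw [map_sub, sub_apply, h, sub_self])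

theorem extY {o : Q.X} {y y'} (h : ∀ z, Q.BB o y z = Q.BB o y' z) : y = y' :=
  sub_eq_zero.1 (A.sepY fun u => by rw [map_sub, sub_apply, h, sub_self])

theorem injι (o : Q.X) : Injective (Q.ι o) := (A.injC o).prodMap (A.injH o)

theorem injZ {o : Q.X} {z z'} (h : Q.i o (Q.j1 o z) = Q.i o (Q.j1 o z')) : z = z' :=
  A.injι o (A.inj0 o (by rwa [← A.ij', ← A.ij']))

theorem symι (o : Q.X) (z z') : Q.BB o (Q.ι o z) z' = Q.BB o (Q.ι o z') z := by
  rw [BB_apply, BB_apply, ← A.ij', ← A.ij', real_inner_comm]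

theorem posι {o : Q.X} {z} (h : Q.BB o (Q.ι o z) z = 0) : z = 0 := by
  rw [BB_apply, ← A.ij', inner_self_eq_zero] at h
  exact A.injZ (by rw [h]; simp)

theorem hs_unique {o : Q.X} {T K K'} (h : Q.IsHs o T K) (h' : Q.IsHs o T K') : K = K' :=
  ContinuousLinearMap.ext (ext_dense (A.den o) K.continuous K'.continuous fun z =>
    (h z).trans (h' z).symm)

/-! ### gradients -/

theorem gr_eq {q t} (h : Q.IsGr q t) : Q.gr q = t := by
  have h' : Q.IsGr q (Q.gr q) := Classical.epsilon_spec ⟨t, h⟩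
  funext o v
  exact A.extE fun u => by rw [((h' o).2 v).unique ((h o).2 v)]

end AxOp

theorem IsGr.contDiff {q t} (h : Q.IsGr q t) (o : Q.X) : ContDiff ℝ ∞ (q o) := by
  refine contDiff_infty_iff_fderiv.2 ⟨fun v => ((h o).2 v).differentiableAt, ?_⟩
  rw [show fderiv ℝ (q o) = fun v => Q.b o (t o v) from funext fun v => ((h o).2 v).fderiv]
  exact (Q.b o).contDiff.comp (h o).1

theorem IsGr.add {p q s t} (h : Q.IsGr p s) (h' : Q.IsGr q t) : Q.IsGr (p + q) (s + t) := fun o =>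
  ⟨(h o).1.add (h' o).1, fun v => by
    simpa only [Pi.add_apply, map_add] using ((h o).2 v).add ((h' o).2 v)⟩

theorem IsGr.mul {p q s t} (h : Q.IsGr p s) (h' : Q.IsGr q t) :
    Q.IsGr (p * q) (p • t + q • s) := fun o =>
  ⟨((h.contDiff o).smul (h' o).1).add ((h'.contDiff o).smul (h o).1), fun v => by
    simp only [Pi.add_apply, map_add, Pi.smul_apply', map_smul]
    exact ((h o).2 v).mul ((h' o).2 v)⟩

theorem isGr_const (c : ℝ) : Q.IsGr (algebraMap ℝ _ c) 0 := fun o =>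
  ⟨contDiff_const, fun v => by
    simp only [Pi.zero_apply, map_zero]
    exact hasFDerivAt_const c v⟩

variable (Q) in
/-- polynomials in the basic invariants -/
def Bl : Subalgebra ℝ Q.Fd := Algebra.adjoin ℝ (range Q.f)

theorem f_mem (j) : Q.f j ∈ Q.Bl := Algebra.subset_adjoin ⟨j, rfl⟩

theorem Rl_le : Q.Rl ≤ Q.Bl := Algebra.adjoin_le (by
  rintro _ (((⟨j, rfl⟩ | ⟨j, rfl⟩) | ⟨j, rfl⟩) | ⟨j, rfl⟩)
  exacts [f_mem _, f_mem _,
    add_mem (mul_mem (f_mem _) (f_mem _)) (mul_mem (f_mem _) (f_mem _)),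
    sub_mem (mul_mem (f_mem _) (f_mem _)) (mul_mem (f_mem _) (f_mem _))])

theorem AxSm.isGr (A : Q.AxSm) (j) : Q.IsGr (Q.f j) (Q.τ j) := fun o => ⟨A.sm j o, A.grad j o⟩

namespace Ax
variable (A : Q.Ax) {p q : Q.Fd}
include A

theorem isGr (hq : q ∈ Q.Bl) : Q.IsGr q (Q.gr q) := by
  refine Classical.epsilon_spec (p := Q.IsGr q) ?_
  induction hq using Algebra.adjoin_induction with
  | mem x hx => obtain ⟨j, rfl⟩ := hx; exact ⟨_, A.sm.isGr j⟩
  | algebraMap c => exact ⟨_, isGr_const c⟩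
  | add x y _ _ hx hy => exact ⟨_, hx.choose_spec.add hy.choose_spec⟩
  | mul x y _ _ hx hy => exact ⟨_, hx.choose_spec.mul hy.choose_spec⟩

theorem gr_f (j) : Q.gr (Q.f j) = Q.τ j := A.op.gr_eq (A.sm.isGr j)

theorem gr_const (c : ℝ) : Q.gr (algebraMap ℝ _ c) = 0 := A.op.gr_eq (isGr_const c)

theorem gr_add (hp : p ∈ Q.Bl) (hq : q ∈ Q.Bl) : Q.gr (p + q) = Q.gr p + Q.gr q :=
  A.op.gr_eq ((A.isGr hp).add (A.isGr hq))

theorem gr_mul (hp : p ∈ Q.Bl) (hq : q ∈ Q.Bl) : Q.gr (p * q) = p • Q.gr q + q • Q.gr p :=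
  A.op.gr_eq ((A.isGr hp).mul (A.isGr hq))

theorem gr_zero : Q.gr 0 = 0 := by simpa using A.gr_const 0

theorem gr_smul (c : ℝ) (hq : q ∈ Q.Bl) : Q.gr (c • q) = c • Q.gr q := by
  rw [Algebra.smul_def, A.gr_mul (algebraMap_mem _ c) hq, A.gr_const, smul_zero, add_zero]
  rfl

theorem gr_sum {κ : Type*} (s : Finset κ) {g : κ → Q.Fd} (hg : ∀ w, g w ∈ Q.Bl) (c : κ → ℝ) :
    Q.gr (∑ w ∈ s, c w • g w) = ∑ w ∈ s, c w • Q.gr (g w) := by
  classical
  induction s using Finset.induction_on with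
  | empty => simpa using A.gr_zero
  | insert a s ha ih =>
    rw [Finset.sum_insert ha, Finset.sum_insert ha, A.gr_add (Subalgebra.smul_mem _ (hg a) _)
      (sum_mem fun w _ => Subalgebra.smul_mem _ (hg w) _), ih, A.gr_smul _ (hg a)]

theorem sm_gr (hq : q ∈ Q.Bl) (o) : ContDiff ℝ ∞ (Q.gr q o) := (A.isGr hq o).1

theorem dq (hq : q ∈ Q.Bl) (o v) : HasFDerivAt (q o) (Q.b o (Q.gr q o v)) v := (A.isGr hq o).2 v

theorem dgr (hq : q ∈ Q.Bl) (o v) : HasFDerivAt (Q.gr q o) (fderiv ℝ (Q.gr q o) v) v :=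
  ((A.sm_gr hq o).differentiable (by simp) v).hasFDerivAt

theorem dgr_add (hp : p ∈ Q.Bl) (hq : q ∈ Q.Bl) (o v) : fderiv ℝ (Q.gr (p + q) o) v =
    fderiv ℝ (Q.gr p o) v + fderiv ℝ (Q.gr q o) v := by
  rw [A.gr_add hp hq]; exact ((A.dgr hp o v).add (A.dgr hq o v)).fderiv

theorem dgr_smul (c : ℝ) (hq : q ∈ Q.Bl) (o v) : fderiv ℝ (Q.gr (c • q) o) v =
    c • fderiv ℝ (Q.gr q o) v := by
  rw [A.gr_smul c hq]; exact ((A.dgr hq o v).const_smul c).fderiv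

theorem dgr_mul (hp : p ∈ Q.Bl) (hq : q ∈ Q.Bl) (o v) : fderiv ℝ (Q.gr (p * q) o) v =
    (p o v • fderiv ℝ (Q.gr q o) v + (Q.b o (Q.gr p o v)).smulRight (Q.gr q o v)) +
    (q o v • fderiv ℝ (Q.gr p o) v + (Q.b o (Q.gr q o v)).smulRight (Q.gr p o v)) := by
  rw [A.gr_mul hp hq]
  exact (((A.dq hp o v).smul (A.dgr hq o v)).add ((A.dq hq o v).smul (A.dgr hp o v))).fderiv

theorem bdd (hq : q ∈ Q.Bl) : ∃ R, ∀ o, |q o 0| ≤ R := by
  induction hq using Algebra.adjoin_induction with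
  | mem x hx => obtain ⟨j, rfl⟩ := hx; exact A.sm.bd j
  | algebraMap c => exact ⟨|c|, fun _ => le_rfl⟩
  | add x y _ _ hx hy =>
    exact ⟨_, fun o => (abs_add_le _ _).trans (add_le_add (hx.choose_spec o) (hy.choose_spec o))⟩
  | mul x y _ _ hx hy =>
    exact ⟨_, fun o => (abs_mul _ _).trans_le (mul_le_mul (hx.choose_spec o) (hy.choose_spec o)
      (abs_nonneg _) ((abs_nonneg _).trans (hx.choose_spec o)))⟩

/-- the gradient is a combination of the basic gradients -/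
theorem gr_exp (hq : q ∈ Q.Bl) : ∃ (S : Finset (Bs Bc Bw B2)) (c : Bs Bc Bw B2 → Q.Fd),
    (∀ j, c j ∈ Q.Bl) ∧ ∀ o v, Q.gr q o v = ∑ j ∈ S, c j o v • Q.τ j o v := by
  have h : Q.gr q ∈ Submodule.span Q.Bl (range Q.τ) := by
    induction hq using Algebra.adjoin_induction with
    | mem x hx => obtain ⟨j, rfl⟩ := hx; exact A.gr_f j ▸ Submodule.subset_span ⟨j, rfl⟩
    | algebraMap c => exact A.gr_const c ▸ zero_mem _
    | add x y hx hy h1 h2 => exact A.gr_add hx hy ▸ add_mem h1 h2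
    | mul x y hx hy h1 h2 =>
      exact A.gr_mul hx hy ▸ add_mem (Submodule.smul_mem _ (⟨x, hx⟩ : Q.Bl) h2)
        (Submodule.smul_mem _ (⟨y, hy⟩ : Q.Bl) h1)
  obtain ⟨a, ha⟩ := Finsupp.mem_span_range_iff_exists_finsupp.1 h
  refine ⟨a.support, fun j => a j, fun j => (a j).2, fun o v => ?_⟩
  rw [← ha, Finsupp.sum, Finset.sum_apply, Finset.sum_apply]
  rfl

theorem cpt_hs (hq : q ∈ Q.Bl) (o) : IsCompactOperator (fderiv ℝ (Q.gr q o) 0) ∧
    ∃ K, Q.IsHs o (fderiv ℝ (Q.gr q o) 0) K := by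
  induction hq using Algebra.adjoin_induction with
  | mem x hx => obtain ⟨j, rfl⟩ := hx; exact A.gr_f j ▸ ⟨A.sm.cpt j o, A.sm.hs j o⟩
  | algebraMap c =>
    rw [A.gr_const, Pi.zero_apply, fderiv_zero]
    exact ⟨isCompactOperator_zero, 0, fun z => by simp [Prod.mk_zero_zero]⟩
  | add x y hx hy h1 h2 =>
    obtain ⟨a1, K1, b1⟩ := h1
    obtain ⟨a2, K2, b2⟩ := h2
    rw [A.dgr_add hx hy]
    exact ⟨a1.add a2, K1 + K2, fun z => by
      rw [add_apply, b1, b2, ← map_add, Prod.mk_add_mk, add_zero, add_apply]⟩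
  | mul x y hx hy h1 h2 =>
    obtain ⟨a1, K1, b1⟩ := h1
    obtain ⟨a2, K2, b2⟩ := h2
    rw [A.dgr_mul hx hy]
    refine ⟨((a2.smul _).add (cpt_smulRight _ _)).add ((a1.smul _).add (cpt_smulRight _ _)),
      (x o 0 • K2 + (innerSL ℝ (Q.j0 o (Q.gr x o 0, 0))).smulRight (Q.j0 o (Q.gr y o 0, 0))) +
      (y o 0 • K1 + (innerSL ℝ (Q.j0 o (Q.gr y o 0, 0))).smulRight (Q.j0 o (Q.gr x o 0, 0))),
      fun z => ?_⟩
    simp only [add_apply, smul_apply, b1 z, b2 z, ContinuousLinearMap.smulRight_apply,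
      innerSL_apply_apply, ← BB_apply, A.op.pair', ← map_smul, ← map_add, Prod.smul_mk,
      Prod.mk_add_mk, smul_zero, add_zero]

theorem hs_spec (hq : q ∈ Q.Bl) (o) : Q.IsHs o (fderiv ℝ (Q.gr q o) 0) (Q.hs q o) :=
  Classical.epsilon_spec (A.cpt_hs hq o).2

theorem hs_eq (hq : q ∈ Q.Bl) {o K} (h : Q.IsHs o (fderiv ℝ (Q.gr q o) 0) K) : Q.hs q o = K :=
  A.op.hs_unique (A.hs_spec hq o) h

theorem hs_add (hp : p ∈ Q.Bl) (hq : q ∈ Q.Bl) (o) : Q.hs (p + q) o = Q.hs p o + Q.hs q o :=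
  A.hs_eq (add_mem hp hq) fun z => by
    rw [add_apply, A.hs_spec hp, A.hs_spec hq, A.dgr_add hp hq, ← map_add, Prod.mk_add_mk, add_zero,
      add_apply]

theorem hs_smul (c : ℝ) (hq : q ∈ Q.Bl) (o) : Q.hs (c • q) o = c • Q.hs q o :=
  A.hs_eq (Subalgebra.smul_mem _ hq c) fun z => by
    rw [smul_apply, A.hs_spec hq, A.dgr_smul c hq, ← map_smul, Prod.smul_mk, smul_zero, smul_apply]

theorem hs_sym (hq : q ∈ Q.Bl) (o) : Q.hs q o ∈ symA (Q.X₀ o) := fun x y => by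
  have h : ∀ u w, Q.b o (fderiv ℝ (Q.gr q o) 0 u) w = Q.b o (fderiv ℝ (Q.gr q o) 0 w) u :=
    second_derivative_symmetric (A.dq hq o) ((Q.b o).hasFDerivAt.comp 0 (A.dgr hq o 0))
  refine ext_dense (A.op.den o) (f := fun x => ⟪Q.hs q o x, y⟫_ℝ) (g := fun x => ⟪x, Q.hs q o y⟫_ℝ)
    (by fun_prop) (by fun_prop) (fun z => ?_) x
  refine ext_dense (A.op.den o) (f := fun y => ⟪Q.hs q o _, y⟫_ℝ) (g := fun y => ⟪_, Q.hs q o y⟫_ℝ)
    (by fun_prop) (by fun_prop) (fun w => ?_) y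
  rw [real_inner_comm (Q.hs q o _), A.hs_spec hq, A.hs_spec hq, ← BB_apply, ← BB_apply, A.op.pair',
    A.op.pair', h]

/-! ### the perturbed gradient -/

theorem sm_F (hq : q ∈ Q.Bl) (o) : ContDiff ℝ ∞ (Q.F q o) := (A.op.sm0 o).add (A.sm_gr hq o)

theorem dF (hq : q ∈ Q.Bl) (o v) : HasFDerivAt (Q.F q o) (fderiv ℝ (Q.F q o) v) v :=
  ((A.sm_F hq o).differentiable (by simp) v).hasFDerivAt

theorem dF_eq (hq : q ∈ Q.Bl) (o v) :
    fderiv ℝ (Q.F q o) v = fderiv ℝ (Q.F0 o) v + fderiv ℝ (Q.gr q o) v :=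
  ((((A.op.sm0 o).differentiable (by simp) v).hasFDerivAt).add (A.dgr hq o v)).fderiv

theorem ext_F (hq : q ∈ Q.Bl) (o z) : Q.ext o (fderiv ℝ (Q.F q o) 0) z =
    Q.ext o (fderiv ℝ (Q.F0 o) 0) z + (fderiv ℝ (Q.gr q o) 0 z.1, 0) := by
  rw [A.dF_eq hq, ext_apply o _ z.1 z.2, ext_apply o _ z.1 z.2, Prod.mk_add_mk, add_apply, add_zero,
    add_right_comm]

theorem op_j1 (hq : q ∈ Q.Bl) (o z) : Op (Q.i o) (Q.L0 o) (Q.hs q o) (Q.j1 o z) =
    Q.j0 o (Q.ext o (fderiv ℝ (Q.F q o) 0) z) := by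
  rw [Op_apply, A.op.L0, A.hs_spec hq, A.ext_F hq, map_add]

theorem sy (hq : q ∈ Q.Bl) (o) : SY (Q.BB o) (Q.ι o) (Q.ext o (fderiv ℝ (Q.F q o) 0)) where
  symT z z' := by
    rw [BB_apply, BB_apply, ← A.op_j1 hq, ← A.op_j1 hq, (A.sf o).symOp (A.hs_sym hq o),
      real_inner_comm]
  symι := A.op.symι o
  pos _ := A.op.posι
  fr := ((A.op.fr o).add_compact (T := ContinuousLinearMap.inl ℝ _ _ ∘L fderiv ℝ (Q.gr q o) 0 ∘L
    ContinuousLinearMap.fst ℝ _ _) (((A.cpt_hs hq o).1.comp_clm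
      (ContinuousLinearMap.fst ℝ _ (Q.M o))).clm_comp (ContinuousLinearMap.inl ℝ _ (Q.H o)))).congr
    (A.ext_F hq o)

theorem sym_dF (hq : q ∈ Q.Bl) (o u w) :
    Q.b o (fderiv ℝ (Q.F q o) 0 u) w = Q.b o (fderiv ℝ (Q.F q o) 0 w) u := by
  have h := (A.sy hq o).symT (u, 0) (w, 0)
  rw [ext_apply, ext_apply, A.op.BB_split, A.op.BB_split o (_ + _)] at h
  simpa only [Prod.mk_zero_zero, map_zero, add_zero] using h

/-- `σ` is the adjoint of `D` -/
theorem adj (o u m) : Q.BB o (0, Q.σ o u) (0, m) = Q.b o (Q.D o m) u := by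
  have h := (A.sy (zero_mem _) o).symT (u, 0) (0, m)
  rw [ext_apply, ext_apply, A.op.BB_split, map_zero (Q.σ o), A.op.pair'] at h
  simpa only [map_zero, zero_add] using h

/-- elliptic regularity of the kernel -/
theorem ker_j1 (hq : q ∈ Q.Bl) {o k} (hk : Op (Q.i o) (Q.L0 o) (Q.hs q o) k = 0) :
    ∃ z, Q.ext o (fderiv ℝ (Q.F q o) 0) z = 0 ∧ k = Q.j1 o z := by
  obtain ⟨n, f, h1, h2⟩ := (A.sy hq o).exists_fam
  have hb := (A.sy hq o).bij h1 h2
  let B₀ : Q.X₀ o →L[ℝ] Q.X₁ o →L[ℝ] ℝ :=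
    (innerSL ℝ : Q.X₀ o →L[ℝ] Q.X₀ o →L[ℝ] ℝ).bilinearComp (ContinuousLinearMap.id ℝ _) (Q.i o)
  let S := Op (Q.i o) (Q.L0 o) (Q.hs q o) + fk B₀ (Q.i o) fun i => Q.j1 o (f i)
  have e : ∀ z, S (Q.j1 o z) =
      Q.j0 o ((Q.ext o (fderiv ℝ (Q.F q o) 0) + fk (Q.BB o) (Q.ι o) f) z) := fun z => by
    simp only [S, add_apply, fk_apply, A.op_j1 hq, map_add, ← A.op.ij', map_sum, map_smul, BB_apply]
    rfl
  have hF : Fr S 0 := ((A.sf o).frOp _).add_compact (cpt_fk _ _ _)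
  have hs : Surjective S := by
    have hc : IsClosed (range S) := hF.1.isClosed_range
    rw [← range_eq_univ, ← hc.closure_eq, ← dense_iff_closure_eq]
    refine (A.op.den0 o).mono ?_
    rintro _ ⟨y, rfl⟩
    obtain ⟨z, rfl⟩ := hb.2 y
    exact ⟨_, e z⟩
  obtain ⟨z, hz⟩ := hb.2 (Q.ι o (∑ i, B₀ (Q.i o (Q.j1 o (f i))) k • f i))
  have h3 : k = Q.j1 o z := hF.inj_of_surj hs (by
    rw [e, hz, ← A.op.ij', add_apply, hk, zero_add, fk_apply, map_sum (Q.j1 o)]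
    simp only [map_smul])
  exact ⟨z, A.op.inj0 o (by rw [← A.op_j1 hq, ← h3, hk, map_zero]), h3⟩

/-- kernels are smooth -/
theorem ker_smo (hq : q ∈ Q.Bl) {o z} (hz : Q.ext o (fderiv ℝ (Q.F q o) 0) z = 0) :
    z.1 ∈ Q.Smo o := by
  obtain ⟨S, c, hc, h⟩ := A.gr_exp hq
  refine A.sm.reg o S (fun j => c j o 0) (fun j => Q.b o (Q.gr (c j) o 0) z.1) z ?_
  rw [← hz, A.ext_F hq, show Q.gr q o = _ from funext (h o), (HasFDerivAt.fun_sum fun j _ =>
    (A.dq (hc j) o 0).fun_smul ((A.sm.sm j o).differentiable (by simp) 0).hasFDerivAt).fderiv]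
  simp [sum_apply]

end Ax

end Crest.Agent.X212.Crt72.GM
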