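import Crest.Agent.X212.Cyf70.Nz
import Crest.Agent.X212.Cyf70.Op
import Crest.Agent.X212.Nk89.Lax
import Crest.Agent.X212.Nk89.Hdy
import Crest.Agent.X212.Map77.Tw
import Crest.Agent.X212.Sob92.Fun
import Crest.Agent.X212.Crt72.Exc
import Crest.Agent.X212.Nk89.Idx

-- ▼ part X212/Crt72/Dc1
section

/-!
# Row 212, DICT (helper72): change of level, weights on the cylinder
-/

set_option autoImplicit false
set_option linter.unusedSectionVars false
noncomputable section
open scoped Manifold ContDiff Topology InnerProductSpace BoundedContinuousFunction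
open MeasureTheory Set Function Filter Real

namespace Crest.Agent.X212.Crt72
open An An.Pre Sob92 Ell97 Cyf70 Nk89 Rf65

section gen
variable {E : Type} [NormedAddCommGroup E] [NormedSpace ℝ E] [FiniteDimensional ℝ E]
  [MeasurableSpace E] [BorelSpace E]
  {HM : Type} [TopologicalSpace HM] {I : ModelWithCorners ℝ E HM} [I.Boundaryless]
  {M : Type} [TopologicalSpace M] [ChartedSpace HM M] [IsManifold I ∞ M]
  [MeasurableSpace M] [T2Space M] [BorelSpace M] [SecondCountableTopology M]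
  {ι : Type} [Fintype ι] {U V W : Type} [NormedAddCommGroup U] [InnerProductSpace ℝ U]
  [NormedAddCommGroup V] [InnerProductSpace ℝ V] [NormedAddCommGroup W] [InnerProductSpace ℝ W]
  [FiniteDimensional ℝ U] [FiniteDimensional ℝ V] [FiniteDimensional ℝ W]
  {G : Fr I M ι} {p : M → V →L[ℝ] V} {q : M → W →L[ℝ] W} {r : M → U →L[ℝ] U} {a b c : ℕ}

/-- the values of `T` on smooth sections with compact support -/
def Ir (G : Pre I M ι) (T : G.H a p →L[ℝ] G.H b q) (τ : (M → V) → M → W) : Prop :=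
  ∀ u : Sec I p, Is G b q (T (G.toH a p u)) (τ u.1)

namespace Ir
variable {T T' : G.H a p →L[ℝ] G.H b q} {τ τ' : (M → V) → M → W}

theorem of (h : G.Rep T τ) : Ir G.toPre T τ := fun u => by rw [RepT_toH h]; exact Is.toH _

theorem congr (h : Ir G.toPre T τ) (e : ∀ u : Sec I p, τ u.1 = τ' u.1) : Ir G.toPre T τ' :=
  fun u => e u ▸ h u

theorem eq (h : Ir G.toPre T τ) (h' : Ir G.toPre T' τ') (e : ∀ u : Sec I p, τ u.1 = τ' u.1) :
    T = T' := clm_ext fun u => (h.congr e u).unique (h' u)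

theorem add (h : Ir G.toPre T τ) (h' : Ir G.toPre T' τ') :
    Ir G.toPre (T + T') fun u => τ u + τ' u := fun u => (h u).add (h' u)

theorem sub (h : Ir G.toPre T τ) (h' : Ir G.toPre T' τ') :
    Ir G.toPre (T - T') fun u => τ u - τ' u := fun u => (h u).sub (h' u)

theorem right (h : Ir G.toPre T τ) {S : G.H c r →L[ℝ] G.H a p} {σ : (M → U) → M → V}
    (h' : G.Rep S σ) : Ir G.toPre (T ∘L S) fun u => τ (σ u) := fun u => by
  rw [ContinuousLinearMap.comp_apply, RepT_toH h']; exact h _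

theorem mul (h : Ir G.toPre T τ) {f : M → W →L[ℝ] U} (hf : G.Cb f) (hm : Maps q r f) :
    Ir G.toPre (G.mulH b q r f ∘L T) fun u x => f x (τ u x) := fun u =>
  have := FiniteDimensional.complete ℝ U
  (h u).mulH hf hm

theorem incl (h : Ir G.toPre T τ) (hc : c ≤ b) : Ir G.toPre (G.incl b c q ∘L T) τ :=
  fun u => (h u).incl hc

end Ir

theorem ae_wt {F F' : Pre I M ι} {ψ : M → ℝ} (h : WtP F F' ψ) {P : M → Prop} (hp : ∀ᵐ x ∂F.μ, P x) :
    ∀ᵐ x ∂F'.μ, P x := by
  rw [h.μ]; exact (withDensity_absolutelyContinuous _ _).ae_le hp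

theorem is_rep {F F' : Pre I M ι} {ψ χ : M → ℝ} (h : WtP F F' ψ) {T : F'.H a p →L[ℝ] F.H b p}
    (hT : F'.RepT F T fun u z => χ z • u z) (x : F'.H a p) :
    Is F b p (T x) fun z => χ z • F'.toL2 a p x z := by
  have := FiniteDimensional.complete ℝ V
  obtain ⟨w, h1, h2⟩ := exists_seq_ae x
  refine ae_eq_of_tendsto (((F.toL2 b _).continuous.tendsto _).comp
    ((T.continuous.tendsto _).comp h1)) ?_
  filter_upwards [ae_wt h.symm h2,
    ae_all_iff.2 fun n => toL2_toH (F := F) (k := b) ⟨_, RepT_mem hT (w n)⟩] with y a c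
  simp only [comp_apply, RepT_toH hT, c]
  exact a.const_smul _

/-- **from the level zero to all levels** -/
theorem lev {C C' : ℕ → ℝ} {A : An.Op M ι V W} (hF : G.Tame C) (hA : A.Good G C') (hc : A.Cliff G)
    {K : G.H 0 A.p →L[ℝ] G.H 0 A.q} {j₀ : ℕ} (h : ∀ j, j₀ ≤ j → ∃ T : G.H j A.p →L[ℝ] G.H j A.q,
      G.incl j 0 _ ∘L T = K ∘L G.incl j 0 _) {n : ℤ}
    (H : Fred93.Fr (A.H G 0 + K ∘L G.incl 1 0 _) n) (k : ℕ) {T : G.H (k + 1) A.p →L[ℝ] G.H k A.q}
    (e : G.incl k 0 _ ∘L T = (A.H G 0 + K ∘L G.incl 1 0 _) ∘L G.incl (k + 1) 1 _) :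
    Fred93.Fr T n := by
  have := FiniteDimensional.complete ℝ V
  have := FiniteDimensional.complete ℝ W
  have h' := exists_all (par hF hA hc) (par hF hA hc).swap K (j₀ := j₀) fun j hj =>
    let ⟨T, e⟩ := h j hj
    ⟨T, fun u => (dn0_incl _ j _).trans ((DFunLike.congr_fun e u).trans
      (congrArg K (dn0_incl _ j u).symm))⟩
  choose S hS using h'
  have hS : ∀ j u, G.incl j 0 _ (S j u) = K (G.incl j 0 _ u) := fun j u =>
    (dn0_incl _ j _).symm.trans ((hS j u).trans (congrArg K (dn0_incl _ j u)))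
  have z := Nat.zero_le
  have iA : ∀ {k j} (hj : j ≤ k) x, G.incl k j _ (A.H G k x) = A.H G j (G.incl (k + 1) (j + 1) _ x) :=
    fun hj => Rep_incl (rep_OpH hA _).1 (rep_OpH hA _).1 (by omega) hj
  have e1 : ∀ k x, G.incl k 0 _ ((A.H G k + G.incl (k + 1) k _ ∘L S (k + 1)) x) =
      (A.H G 0 + K ∘L G.incl 1 0 _) (G.incl (k + 1) 1 _ x) := fun k x => by
    simp only [_root_.add_apply, map_add, ContinuousLinearMap.comp_apply, iA (z k),
      incl_incl k.le_succ (z k), hS, incl_incl (Nat.succ_pos k) (z 1)]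
  have key : ∀ k, Fred93.Fr (A.H G k + G.incl (k + 1) k _ ∘L S (k + 1)) n := fun k => by
    induction k with
    | zero => exact H.congr fun x => (incl_self _).symm.trans ((e1 0 x).trans (by rw [incl_self]))
    | succ k ih =>
      have := transfer (T' := A.H G (k + 1) + G.incl (k + 2) (k + 1) _ ∘L S (k + 2))
        (incl_injective (k + 1).le_succ) (incl_injective k.le_succ) (denseRange_incl k.le_succ)
        (fun u => incl_injective (z k) (by
          rw [incl_incl k.le_succ (z k), e1, e1, incl_incl (k + 1).le_succ (Nat.succ_pos k)]))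
        (fun u f e => (reg_up hF hA hc.1 k.le_succ (w := f - S (k + 1) u)
          (by rw [map_sub, ← e]; simp)).imp fun _ h => h.1) (fred_iff_isFredholm.2 ih.1)
      exact ⟨fred_iff_isFredholm.1 this.1, this.2.1.trans ih.2⟩
  exact (key k).congr fun x => incl_injective (z k) ((DFunLike.congr_fun e x).trans (e1 k x).symm)

/-- `A* A` is bijective if the Hardy inequality holds without error term -/
theorem LL_bij0 {C C' : ℕ → ℝ} {A : An.Op M ι V W} (hF : G.Tame C) (hA : A.Good G C')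
    (hc : A.CliffL G) {X : ι → M → ℝ} {c R : ℝ} (h : HdD G X 0 c 0 R) {T : ι → M → V →L[ℝ] V}
    (hT : ∀ a, Sm I (T a)) (hs : ∀ a x, Wz78.Skew (T a x)) (L : ι → W →L[ℝ] V)
    (hN : ∀ (u : Sec I A.p) a x, Wz78.nab I G.e T a u.1 x = L a (A.app G u.1 x)) (k : ℕ) :
    Bijective ((Hs G A k).comp (A.H G (k + 1))) := by
  refine LL_bij_of_low (hlf hF hA hc) (C := √(cH (Fintype.card ι) c 0 R * ∑ a, ‖L a‖ ^ 2))
    (fun x => ?_) k
  change ‖G.incl 1 0 _ x‖ ≤ _ * ‖A.H G 0 x‖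
  refine H_le (f := fun x => ‖G.incl 1 0 _ x‖) (g := fun x => _ * ‖A.H G 0 x‖) (by fun_prop) (by fun_prop) (fun u => ?_) x
  have s := RepT_mem (rep_OpH hA 0).1 u
  have c0 := cH_nonneg (Fintype.card ι) h.c0 le_rfl R
  rw [incl_toH zero_le_one, RepT_toH (rep_OpH hA 0).1, norm_toH, norm_toH, nrm_eq, nrm_eq,
    ← sqrt_mul (by positivity)]
  refine sqrt_le_sqrt ((h.N2_le hT hs u.2.1 u.2.2.1).trans ?_)
  rw [mul_assoc, Finset.sum_mul]
  refine mul_le_mul_of_nonneg_left (le_of_eq_of_le (by simp [N2, n2]) (Finset.sum_le_sum fun a _ =>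
    (congrArg (N2 _ 0) (funext (hN u a))).trans_le
      (n2_clm_le (μ := G.μ) G.sm (L a) 0 s.1 (FL_of_hcs 0 s.1 s.2.1)))) c0

end gen

variable {E : Type} [NormedAddCommGroup E] [NormedSpace ℝ E] [FiniteDimensional ℝ E]
  [MeasurableSpace E] [BorelSpace E]
  {HM : Type} [TopologicalSpace HM] {I : ModelWithCorners ℝ E HM} [I.Boundaryless]
  {Y : Type} [TopologicalSpace Y] [ChartedSpace HM Y] [IsManifold I ∞ Y] [T2Space Y]
  [MeasurableSpace Y] [BorelSpace Y] [SecondCountableTopology Y] [CompactSpace Y]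
  {ι : Type} [Fintype ι]
  {V W : Type} [NormedAddCommGroup V] [InnerProductSpace ℝ V] [NormedAddCommGroup W]
  [InnerProductSpace ℝ W] [FiniteDimensional ℝ V] [FiniteDimensional ℝ W]
  {F : Fr I Y ι} {G : Fr (IC I) (Y × ℝ) (Option ι)} {ψ : ℝ → ℝ} {p : Y → V →L[ℝ] V}

theorem CB_snd (F : Pre I Y ι) (k : ℕ) : ∀ {f : ℝ → ℝ} {A : ℝ}, ContDiff ℝ ∞ f → Neck67.Bd k f A →
    (cylP F).CB k (fun x => f x.2) A := by
  induction k with
  | zero => exact fun _ hb => CB_zero.2 fun x => hb x.2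
  | succ k ih =>
    refine fun {f A} hf hb => CB_succ.2 ⟨fun x => hb.1 x.2, fun a => ?_⟩
    cases a with
    | none => rw [D_none_snd F hf]; exact ih (Neck67.cd_deriv hf) hb.2
    | some a =>
      rw [D_some_snd F hf a]
      exact CB_mono (CB_const k (0 : ℝ)) (by simpa using hb.nonneg)

theorem cb_snd (F : Pre I Y ι) {f : ℝ → ℝ} (h : Neck67.Sm f) : (cylP F).Cb fun x => f x.2 :=
  let ⟨A, hA⟩ := Classical.skolem.1 h.bd
  ⟨A, sm_snd h.cd, fun k => CB_snd F k h.cd (hA k)⟩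

variable (F G ψ) in
/-- `G` is the cylinder with the weight `e^{ψ(t)}` -/
structure Wz : Prop where
  wt : Wt (cyl F) G fun x => ψ x.2
  cd : ContDiff ℝ ∞ ψ
  sm : Neck67.Sm (deriv ψ)

namespace Wz
variable (w : Wz F G ψ)
include w

theorem wp : WtP (cylP F.toPre) G.toPre fun x => ψ x.2 := w.wt.toWtP

theorem D_none : (cylP F.toPre).D none (fun x => ψ x.2) = fun x => deriv ψ x.2 :=
  D_none_snd _ w.cd

theorem hD : ∃ D, ∀ a, (cylP F.toPre).CBs ((cylP F.toPre).D a fun x => ψ x.2) D :=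
  Prm93.Cb_unif fun a => by
    cases a with
    | none => exact w.D_none ▸ cb_snd _ w.sm
    | some a => exact D_some_snd F.toPre w.cd a ▸ Cb_const 0

/-- multiplication by the weight -/
def cj (k : ℕ) (p : Y × ℝ → V →L[ℝ] V) : G.H k p ≃L[ℝ] (cylP F.toPre).H k p :=
  w.wp.cj k p w.hD.choose_spec

theorem rep (k : ℕ) (p : Y × ℝ → V →L[ℝ] V) : G.RepT (cylP F.toPre)
    (w.cj k p : G.H k p →L[ℝ] (cylP F.toPre).H k p) fun u x => exp (ψ x.2) • u x := w.wp.rep_cj k p _

/-- the weighted `L²` space as `L²(ℝ, L²(Y))` -/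
def ce (p : Y → V →L[ℝ] V) : G.H 0 (pc p) ≃L[ℝ] Lam (F.H 0 p) :=
  (w.cj 0 (pc p)).trans (Ψe F.toPre p).toContinuousLinearEquiv

theorem ce_apply (x : G.H 0 (pc p)) : w.ce p x = Ψ F.toPre 0 p (w.cj 0 (pc p) x) := rfl

/-- an operator on `L²(ℝ, L²(Y))` seen on the weighted space -/
def wK (K : Lam (F.H 0 p) →L[ℝ] Lam (F.H 0 p)) : G.H 0 (pc p) →L[ℝ] G.H 0 (pc p) :=
  ((w.ce p).symm : _ →L[ℝ] _) ∘L K ∘L (w.ce p : _ →L[ℝ] _)

theorem ce_wK (K : Lam (F.H 0 p) →L[ℝ] Lam (F.H 0 p)) (x : G.H 0 (pc p)) :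
    w.ce p (w.wK K x) = K (w.ce p x) := (w.ce p).apply_symm_apply _

omit w in
theorem Ψ_m {b : ℝ → ℝ} (hb : Neck67.Sm b) (x : (cylP F.toPre).H 0 (pc p)) :
    (muL _).m b (Ψ F.toPre 0 p x) = Ψ F.toPre 0 p (smulH _ 0 _ (fun x => b x.2) x) := by
  have e : (fun x : Y × ℝ => bc b x.2) = fun x => b x.2 := funext fun x => bc_apply hb _
  rw [muL_m, ← Ψ_smul (e ▸ cb_snd _ hb), e]

theorem ir_m {b : ℝ → ℝ} (hb : Neck67.Sm b) (K : Lam (F.H 0 p) →L[ℝ] Lam (F.H 0 p)) :
    w.wK ((muL _).m b ∘L K) = smulH _ 0 _ (fun x => b x.2) ∘L w.wK K := by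
  have c := cb_snd F.toPre hb
  have e := RepT_eq (RepT_comp (rep_smulH (k := 0) c) (w.rep 0 (pc p)))
    (RepT_comp (w.rep 0 (pc p)) (rep_smulH (w.wp.Cb.2 c))) fun u => funext fun x => smul_comm _ _ _
  ext1 x
  refine (w.ce p).injective ?_
  rw [w.ce_wK, ContinuousLinearMap.comp_apply, ← w.ce_wK, w.ce_apply, Ψ_m hb]
  exact congrArg _ (DFunLike.congr_fun e _)

/-- the conjugated operator has the same values -/
theorem ir_wK {K K' : Lam (F.H 0 p) →L[ℝ] Lam (F.H 0 p)} (hc : Cj (muL _) ψ K K')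
    {K₀ : (cylP F.toPre).H 0 (pc p) →L[ℝ] (cylP F.toPre).H 0 (pc p)}
    (hK : ∀ x, K (Ψ F.toPre 0 p x) = Ψ F.toPre 0 p (K₀ x)) {τ : (Y × ℝ → V) → Y × ℝ → V}
    (h : Ir (cylP F.toPre) K₀ τ) : Ir G.toPre (w.wK K') τ := fun u => by
  have sm : ∀ {φ : ℝ → ℝ} (n : ℝ), ContDiff ℝ ∞ φ → Neck67.Sm (cu n * Neck67.ex φ) := fun n hφ =>
    .of_cpt ((sm_cu n).cd.mul hφ.exp) (hcs_cu n).mul_right
  obtain ⟨N, hN⟩ := (u.2.2.1.isCompact.image (continuous_snd.abs)).bddAbove
  have key : ∀ n : ℝ, N ≤ n → ∀ᵐ z ∂(cylP F.toPre).μ, cu n z.2 • exp (ψ z.2) •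
      G.toL2 0 _ (w.wK K' (G.toH 0 _ u)) z = (cu n * Neck67.ex ψ) z.2 • τ u.1 z := fun n hn => by
    have s1 := sm n w.cd
    have s2 : Neck67.Sm (Neck67.ex (-ψ) * cu n) := mul_comm (cu n) _ ▸ sm n w.cd.neg
    have o : ∀ x, cu n x.2 • u.1 x = u.1 x := fun x => by
      by_cases hx : x ∈ tsupport u.1
      · rw [cu_one ((hN ⟨x, hx, rfl⟩).trans hn), one_smul]
      · rw [image_eq_zero_of_notMem_tsupport hx, smul_zero]
    have e := DFunLike.congr_fun (hc _ _ (sm_cu n) (sm_cu n) (hcs_cu n) (hcs_cu n))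
      (w.ce p (G.toH 0 _ u))
    have e1 : (muL _).m (cu n) (w.ce p (G.toH 0 _ u)) = w.ce p (G.toH 0 _ u) := by
      rw [w.ce_apply, Ψ_m (sm_cu n)]
      exact congrArg _ ((RepT_toH (RepT_comp (rep_smulH (cb_snd _ (sm_cu n))) (w.rep 0 _)) u).trans
        (RepT_toH' (w.rep 0 _) u _ (funext fun x =>
          ((smul_comm _ _ _).trans (congrArg _ (o x))).symm)).symm)
    have e2 : (muL _).m (Neck67.ex (-ψ) * cu n) (w.ce p (G.toH 0 _ u)) =
        Ψ F.toPre 0 p ((cylP F.toPre).toH 0 _ u) := by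
      rw [w.ce_apply, Ψ_m s2]
      exact congrArg _ (RepT_toH' (RepT_comp (rep_smulH (cb_snd _ s2)) (w.rep 0 _)) u u
        (funext fun x => by
          rw [smul_smul, Pi.mul_apply, mul_right_comm, mul_smul, o, Neck67.ex, Pi.neg_apply,
            ← exp_add, neg_add_cancel, exp_zero, one_smul]))
    simp only [mul_apply_eq_comp, e1, e2, hK] at e
    rw [← w.ce_wK, w.ce_apply, Ψ_m (sm_cu n), Ψ_m s1] at e
    have e3 := (Ψe F.toPre p).injective e
    exact EventuallyEq.trans (EventuallyEq.symm ((is_rep w.wp (w.rep 0 _) _).smulH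
      (cb_snd _ (sm_cu n)))) (e3 ▸ (h u).smulH (cb_snd _ s1))
  filter_upwards [ae_wt w.wp (ae_all_iff.2 fun n : ℕ => key (|N| + n)
    ((le_abs_self N).trans (le_add_of_nonneg_right n.cast_nonneg)))] with z hz
  have := hz ⌈|z.2|⌉₊
  rw [Pi.mul_apply, cu_one ((Nat.le_ceil _).trans (le_add_of_nonneg_left (abs_nonneg N))), one_smul,
    one_mul] at this
  exact smul_right_injective _ (exp_pos _).ne' this

end Wz

end Crest.Agent.X212.Crt72
end
end

-- ▼ part X212/Crt72/Dc2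

/-!
# Row 212, DICT (helper72): the weight `δ |t|` on the cylinder
-/

set_option autoImplicit false
set_option linter.unusedSectionVars false
noncomputable section
open scoped Manifold ContDiff Topology InnerProductSpace BoundedContinuousFunction
open MeasureTheory Set Function Filter Real

namespace Crest.Agent.X212.Crt72
open An An.Pre Sob92 Ell97 Cyf70 Nk89 Rf65

/-! ### the smoothed absolute value -/

/-- the derivative of `t ↦ t s(t)` -/
def g1 (t : ℝ) : ℝ := smoothTransition t + t * deriv smoothTransition t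

theorem dst_zero {t : ℝ} (h : t ∉ Icc (0 : ℝ) 1) : deriv smoothTransition t = 0 := by
  rcases not_and_or.1 h with h | h
  · exact Neck67.deriv_zero_off (K := Ici 0) isClosed_Ici
      (fun t ht => smoothTransition.zero_of_nonpos (not_le.1 ht).le) t h
  · exact Neck67.deriv_zero_off (K := Iic 1) isClosed_Iic
      (fun t ht => smoothTransition.one_of_one_le (not_le.1 ht).le) t h

theorem sm_g1 : Neck67.Sm g1 := Neck67.sm_step.add (.of_cpt
  (contDiff_id.mul Neck67.sm_step.deriv.cd) (.intro (isCompact_Icc (a := 0) (b := 1)) fun t ht => by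
    simp [dst_zero ht]))

theorem g1_neg {t : ℝ} (h : t ≤ 0) : g1 t = 0 := by
  rw [g1, smoothTransition.zero_of_nonpos h, zero_add]
  rcases h.eq_or_lt with rfl | h
  exacts [zero_mul _, by rw [dst_zero fun a => h.not_ge a.1, mul_zero]]

theorem g1_one {t : ℝ} (h : 2 ≤ t) : g1 t = 1 := by
  rw [g1, smoothTransition.one_of_one_le (by linarith), dst_zero fun a => by linarith [a.2]]; simp

theorem g1_nonneg (t : ℝ) : 0 ≤ g1 t := (le_total t 0).elim (fun h => (g1_neg h).ge) fun h =>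
  add_nonneg (smoothTransition.nonneg t) (mul_nonneg h smoothTransition.monotone.deriv_nonneg)

theorem deriv_ab (δ : ℝ) : deriv (fun t => δ * ab t) = fun t => δ * (g1 t - g1 (-t)) := by
  have h : ∀ t, HasDerivAt (fun t => t * smoothTransition t) (g1 t) t := fun t => by
    simpa [g1] using (hasDerivAt_id t).fun_mul (Neck67.sm_step.diff t).hasDerivAt
  funext t
  simpa [ab, sub_eq_add_neg] using
    (((h t).fun_add ((h (-t)).comp t (hasDerivAt_neg t))).const_mul δ).deriv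

theorem sm_dab (δ : ℝ) : Neck67.Sm (deriv fun t => δ * ab t) := by
  rw [deriv_ab]
  simpa [Pi.smul_def, Pi.sub_def] using (sm_g1.sub (sm_g1.aff (a := -1) (by simp) 0)).smul δ

theorem ab_nonneg (t : ℝ) : 0 ≤ ab t := by
  have h : ∀ t, 0 ≤ t * smoothTransition t := fun t => (le_total t 0).elim
    (fun h => by rw [smoothTransition.zero_of_nonpos h, mul_zero])
    fun h => mul_nonneg h (smoothTransition.nonneg t)
  exact add_nonneg (h t) (h (-t))

theorem ab_hi (δ : ℝ) {t : ℝ} (h : 2 ≤ t) :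
    δ * ab t = δ * t ∧ deriv (fun t => δ * ab t) t = δ := by
  rw [deriv_ab]
  simp [ab, g1_one h, g1_neg (t := -t) (by linarith), smoothTransition.one_of_one_le
    (x := t) (by linarith), smoothTransition.zero_of_nonpos (x := -t) (by linarith)]

theorem ab_lo (δ : ℝ) {t : ℝ} (h : t ≤ -2) :
    δ * ab t = -δ * t ∧ deriv (fun t => δ * ab t) t = -δ := by
  rw [deriv_ab]
  simp [ab, g1_one (t := -t) (by linarith), g1_neg (t := t) (by linarith),
    smoothTransition.one_of_one_le (x := -t) (by linarith),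
    smoothTransition.zero_of_nonpos (x := t) (by linarith)]

theorem bd_ab : ∃ A > 0, ∀ δ, Neck67.Bd 0 (deriv fun t => δ * ab t) (|δ| * A) := by
  obtain ⟨A, hA⟩ := (sm_dab 1).bd 0
  refine ⟨A + 1, by linarith [hA.nonneg], fun δ t => ?_⟩
  have := hA t
  rw [deriv_ab] at this ⊢
  rw [abs_mul]
  exact mul_le_mul_of_nonneg_left (by simpa using this.trans (lt_add_one A).le) (abs_nonneg δ)

/-- the divergence of `arctan(t) ∂_t` -/
theorem div_ab {δ : ℝ} (h : 0 < δ) (t : ℝ) :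
    min (1 / 5) δ ≤ 1 / (1 + t ^ 2) + 2 * deriv (fun t => δ * ab t) t * arctan t := by
  have a1 : ∀ {t}, 2 ≤ t → 1 / 2 ≤ arctan t := fun ht => by
    have := arctan_strictMono.monotone (one_le_two.trans ht)
    rw [arctan_one] at this; linarith [pi_gt_three]
  have p : 0 < 1 / (1 + t ^ 2) := by positivity
  by_cases h1 : 2 ≤ t
  · rw [(ab_hi δ h1).2]; nlinarith [min_le_right (1 / 5) δ, a1 h1]
  by_cases h2 : t ≤ -2
  · have := a1 (t := -t) (by linarith)
    rw [arctan_neg] at this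
    rw [(ab_lo δ h2).2]; nlinarith [min_le_right (1 / 5) δ]
  refine (min_le_left _ _).trans (le_add_of_le_of_nonneg
    (one_div_le_one_div_of_le (by positivity) (by nlinarith)) ?_)
  rw [deriv_ab]
  rcases le_total t 0 with h0 | h0
  · have := mul_nonneg (mul_nonneg h.le (g1_nonneg (-t))) (arctan_nonneg.2 (neg_nonneg.2 h0))
    simp only [g1_neg h0, arctan_neg] at this ⊢; linarith
  · have := mul_nonneg (mul_nonneg h.le (g1_nonneg t)) (arctan_nonneg.2 h0)
    simp only [g1_neg (neg_nonpos.2 h0)]; linarith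

variable {E : Type} [NormedAddCommGroup E] [NormedSpace ℝ E] [FiniteDimensional ℝ E]
  [MeasurableSpace E] [BorelSpace E]
  {HM : Type} [TopologicalSpace HM] {I : ModelWithCorners ℝ E HM} [I.Boundaryless]
  {Y : Type} [TopologicalSpace Y] [ChartedSpace HM Y] [IsManifold I ∞ Y] [T2Space Y]
  [MeasurableSpace Y] [BorelSpace Y] [SecondCountableTopology Y] [CompactSpace Y]
  {ι : Type} [Fintype ι]
  {V W : Type} [NormedAddCommGroup V] [InnerProductSpace ℝ V] [NormedAddCommGroup W]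
  [InnerProductSpace ℝ W] [FiniteDimensional ℝ V] [FiniteDimensional ℝ W]
  {F : Fr I Y ι} {G : Fr (IC I) (Y × ℝ) (Option ι)} {ψ : ℝ → ℝ} {p : Y → V →L[ℝ] V} {δ : ℝ}

theorem wz_ab (h : Wt (cyl F) G fun x => δ * ab x.2) : Wz F G fun t => δ * ab t :=
  ⟨h, contDiff_const.mul sm_ab, sm_dab δ⟩

namespace Wz

theorem hardy (w : Wz F G fun t => δ * ab t) (h : 0 < δ) :
    HdD G (fun a x => a.elim (arctan x.2) fun _ => 0) 0 (min (1 / 5) δ) 0 2 := by
  have s : ContDiff ℝ ∞ arctan := contDiff_arctan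
  refine ⟨fun a => ?_, fun a x => ?_, contMDiff_const, by positivity, le_rfl, fun x => ?_⟩
  · cases a
    exacts [sm_snd s, contMDiff_const]
  · cases a with
    | none => exact (abs_le (a := arctan x.2)).2 ⟨by
        linarith [neg_pi_div_two_lt_arctan x.2, pi_le_four],
        by linarith [arctan_lt_pi_div_two x.2, pi_le_four]⟩
    | some a => simp
  · have e1 : G.D none (fun x => arctan x.2) x = 1 / (1 + x.2 ^ 2) := by
      rw [w.wp.D, D_none_snd _ s, Real.deriv_arctan]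
    have e2 : G.dv none x = 2 * deriv (fun t => δ * ab t) x.2 := by
      rw [w.wt.dv, ← congrFun w.D_none x]; exact zero_add _
    rw [Pre.D_def] at e1
    simpa [Fintype.sum_option, e1, e2, Pre.D_def, dv_const] using div_ab h x.2

variable (w : Wz F G ψ)
include w

theorem tame (h3 : Module.finrank ℝ E ≤ 3) (h0 : ∀ t, 0 ≤ ψ t) : ∃ C, G.Tame C :=
  ⟨_, w.wt.tame (Cht98.tame_cyl F h3).choose_spec (fun x => h0 x.2) w.hD.choose_spec⟩

/-- **from the abstract cylinder to the weighted space** -/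
theorem fr_sym {A : An.Op Y (Option ι) V W} (h : CyO F A) {j : Y → V →L[ℝ] V} (hj : Sm I j)
    (mj : Maps A.p A.p j) {T : G.H 1 (pc A.p) →L[ℝ] G.H 0 (pc A.q)}
    (hT : G.Rep T fun u x => (cyo A).app (cyl F) u x +
      deriv ψ x.2 • A.σ none x.1 (u x - j x.1 (u x))) {K : Lam (F.H 0 A.p) →L[ℝ] Lam (F.H 0 A.p)}
    {n : ℤ} (H : Fred93.Fr (Dz (F.incl 1 0 A.p) (LH F A 0) (Ψ F.toPre 1 A.p) (TH F A.p)
      (K - ma (bc (deriv ψ)) (F.mulH 0 _ _ j))) n) :
    Fred93.Fr (T + (G.mulH 0 _ _ (fun x => A.σ none x.1) ∘L w.wK K) ∘L G.incl 1 0 _) n := by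
  have cj := Cht98.Cb_fst _ (Cb_of_compact (F := F.toPre) hj)
  have r1 := RepT_comp (rep_smulH (k := 0) (cb_snd F.toPre w.sm)) (RepT_comp (rep_mulH (k := 0)
    (p := pc A.p) (q := pc A.p) cj fun x => mj x.1) (rep_incl zero_le_one))
  have e1 := RepT_eq (RepT_comp (h.rep_NH (k := 0)) (RepT_comp (w.rep 0 _) hT))
    (RepT_comp (RepT_sub (RepT_comp h.rep_NH h.rep_AH) r1) (w.rep 1 _)) fun u => funext fun x => by
      have a : ∀ a, (cylP F.toPre).D (some a) (fun x => ψ x.2) x = 0 := fun a =>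
        congrFun (D_some_snd _ w.cd a) x
      have b := u.2.2.2 x
      change nu A x.1 (_ • ((∑ a, A.σ a x.1 ((cylP F.toPre).D a u.1 x) + _) + _)) =
        nu A x.1 (∑ a, A.σ a x.1 ((cylP F.toPre).D a _ x) + _) - _
      simp only [D_exp_smul _ w.wt.sm u.2.1, Fintype.sum_option, w.D_none, a, map_add, map_smul,
        map_sub, h.nu_σ, id, zero_smul, add_zero, map_sum, ← Finset.smul_sum, mj _ _ b]
      module
  have e2 := RepT_eq (RepT_comp (h.rep_NH (k := 0)) (RepT_comp (w.rep 0 _) (rep_mulH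
    (w.wp.Cb.2 (h.cb_σ none)) (Maps.of_left (h.good.choose_spec.qσ none))))) (w.rep 0 _)
    fun u => funext fun x => by rw [map_smul, h.nu_σ]; exact congrArg _ (u.2.2.2 x)
  have e3 := RepT_eq (RepT_comp (w.rep 0 (pc A.p)) (rep_incl zero_le_one))
    (RepT_comp (rep_incl zero_le_one) (w.rep 1 _)) fun _ => rfl
  refine (H.conj (w.cj 1 _) ((w.cj 0 _).trans h.U).symm).congr fun x => ?_
  refine (ContinuousLinearEquiv.eq_symm_apply _).2 ?_
  have a1 := congrArg (Ψ F.toPre 0 A.p) (DFunLike.congr_fun e1 x)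
  have a2 := congrArg (Ψ F.toPre 0 A.p) (DFunLike.congr_fun e2 (w.wK K (G.incl 1 0 _ x)))
  have a3 := congrArg (fun z => K (Ψ F.toPre 0 A.p z)) (DFunLike.congr_fun e3 x)
  have a4 := Ψ_nat r1 (rep_mulH (k := 0) (Cb_of_compact hj) mj) (bc (deriv ψ)) zero_le_one
    (fun u y t => by rw [bc_apply w.sm]; rfl) (w.cj 1 _ x)
  simp only [ContinuousLinearMap.comp_apply, _root_.sub_apply, map_sub, h.Ψ_AH,
    ContinuousLinearEquiv.coe_coe] at a1 a2 a3 a4
  rw [← w.ce_apply, w.ce_wK, w.ce_apply, a3] at a2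
  simp only [ContinuousLinearEquiv.trans_apply, h.U_apply, _root_.add_apply, map_add,
    ContinuousLinearMap.comp_apply, ContinuousLinearMap.coe_coe, a1, a2, a4, Dz_apply,
    ContinuousLinearEquiv.coe_coe, _root_.sub_apply, ← Ψ_incl zero_le_one]
  abel

end Wz

end Crest.Agent.X212.Crt72
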