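import Crest.Agent.X212.Nd18.Term
import Crest.Agent.X212.Map77.Mono
import Crest.Agent.X212.Crt72.GM
import Crest.Agent.X212.Nd18.Props
import Crest.Agent.X212.Eqv71.Alg
import Crest.Agent.X212.Mp86.Ctl

-- ▼ part X212/Crt72/Defs
section

/-!
# Row 212, CRIT (helper72): the gradient model on the cross-section `Y`
-/

set_option autoImplicit false
set_option linter.unusedSectionVars false
noncomputable section
open scoped Manifold ContDiff Topology InnerProductSpace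
open MeasureTheory Set Function Filter

namespace Crest.Agent.X212.Crt72
open An Cyf70 Dgr80 Nd18
open Cyc79 (Cy)
open Wz78 (nab dir)
open Wrd81 (wd)
open Map77 (P2 Cf pj ij i1 i2 sm2 fa fp)

variable {E3 : Type} [NormedAddCommGroup E3] [NormedSpace ℝ E3] [FiniteDimensional ℝ E3]
  [MeasurableSpace E3] [BorelSpace E3]
  {H3 : Type} [TopologicalSpace H3] {I3 : ModelWithCorners ℝ E3 H3} [I3.Boundaryless]
  {Y : Type} [TopologicalSpace Y] [ChartedSpace H3 Y] [IsManifold I3 ∞ Y] [T2Space Y]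
  [MeasurableSpace Y] [BorelSpace Y] [SecondCountableTopology Y] [CompactSpace Y]
  {κ : Type} [Fintype κ] {lam : Type} [Fintype lam]

/-! ### forms on `Y` and on the cylinder -/

section lin
variable (κ) (A : Type) [NormedAddCommGroup A] [InnerProductSpace ℝ A]

/-- a form on `Y` as a form on the cylinder -/
def up : CL (Fm κ A) (Fm (Option κ) A) := Map77.tp fun a => a.elim 0 (pj A)

/-- the `Y`-part of a form on the cylinder -/
def dw : CL (Fm (Option κ) A) (Fm κ A) := Map77.tp fun a => pj A (some a)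

variable {A} in
/-- an endomorphism acting on the values of a form -/
def onv (T : CL A A) : CL (Fm κ A) (Fm κ A) := Map77.tp fun a => T ∘L pj A a

end lin

/-! ### words and fields on `Y` -/

section words
variable (F : Fr I3 Y κ) (β : YC Y κ lam)

/-- the connection on `Y` -/
def cn : κ → Y → En (Fin β.m.N) := fun a => β.W (some a)

/-- the adjoint connection on `Y` -/
def an : κ → Y → En (Fin β.m.N × Fin β.m.N) := fun a => β.m.adW β.W (some a)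

/-- the letters on `Y` -/
def ylt : YL Y → SL Y β.m.V
  | .mul f => .op fun y => f y • (1 : En (Fin β.m.N))
  | .cl none => .op (β.m.ρ none)
  | .cl (some g) => .op fun y => ∑ a, F.D a g y • β.m.ρ (some a) y
  | .im => .op fun _ => β.m.J
  | .G => .G

/-- spinor words on the bounded seed -/
def yw (u : List (YL Y)) : Y → β.m.V := wd (sl F (cn β)) (nP β) (u.map (ylt F β))

/-- gradient of `∫ ⟪yw u, l⟫`: connection part -/
def ywA (u : List (YL Y)) (l : Y → β.m.V) : Y → Fm κ β.m.A :=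
  gc F (cn β) opL (nP β) (u.map (ylt F β)) l

/-- gradient of `∫ ⟪yw u, l⟫`: spinor part -/
def ywP (u : List (YL Y)) (l : Y → β.m.V) : Y → β.m.V := dn β (bk F (cn β) (u.map (ylt F β)) l)

/-- variation of a configuration on `Y` -/
def vy (α : Y → Fm κ β.m.A) (φ : Y → β.m.V) : YC Y κ lam := vr β (fun y => up κ _ (α y)) φ

end words

variable (Y κ lam) in
/-- a functional with its (unprojected) `L²` gradient -/
structure YF where
  f : YC Y κ lam → ℝ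
  gA : (β : YC Y κ lam) → Y → Fm κ β.m.A
  gP : (β : YC Y κ lam) → Y → β.m.V

/-- `∫ ⟪T u, v⟫` -/
def YF.sw (F : Fr I3 Y κ) (T : Pk Y lam) (u v : List (YL Y)) : YF Y κ lam where
  f β := ∫ y, ⟪pk β T y (yw F β u y), yw F β v y⟫_ℝ ∂F.μ
  gA β y := ywA F β u (fun z => pk β T z (yw F β v z)) y +
    ywA F β v (fun z => pk β T z (yw F β u z)) y
  gP β y := ywP F β u (fun z => pk β T z (yw F β v z)) y +
    ywP F β v (fun z => pk β T z (yw F β u z)) y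

variable (D : YD I3 Y κ lam)

/-- densities on the cylinder -/
abbrev ZD (Y κ lam : Type) [Fintype lam] : Type := Den (Y × ℝ) (Option κ) lam 0

/-- a density on the cylinder, evaluated on `t`-invariant configurations -/
def YF.z (d : ZD Y κ lam) : YF Y κ lam where
  f β := ∫ y, d.h (cy β) (y, 0) ∂D.F.μ
  gA β y := dw κ _ (d.gA (cy β) (fun _ => 1) (y, 0))
  gP β y := d.gP (cy β) (fun _ => 1) (y, 0)

/-- the zero perturbation -/
def pt0 : Pt (Y × ℝ) (Option κ) lam 0 0 := ⟨fun _ => 0, fun _ => 0, fun _ => 0⟩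

/-- the unperturbed gradient (the functional is not used) -/
def YF.z0 : YF Y κ lam where
  f _ := 0
  gA β y := WithLp.toLp 2 fun a => (1 / 2 : ℝ) • (cy β).eC D.B D.G pt0 (y, 0) (none, some a)
  gP β y := -β.m.ρ none y ((cy β).eD D.G pt0 (y, 0))

/-- indices of the basic invariants -/
def Bc : Type := {d : (Cy Y × List (La Y)) × Cy Y × List (La Y) //
  (YDen.cy d.1.1 d.1.2 d.2.1 d.2.2).OK D.F}
def Bw : Type := {p : List (YL Y) × List (YL Y) // (YDen.sw p.1 p.2).OK D.F}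
def B2 (_D : YD I3 Y κ lam) : Type := {d : YD2 Y lam // d.OK I3}
abbrev BB : Type := Bs (Bc D) (Bw D) (B2 D)

/-- the densities of `Nd18` on the cylinder -/
def den : BB D → ZD Y κ lam
  | .cy d => D.nk.den (.cy d.1.1.1 d.1.1.2 d.1.2.1 d.1.2.2)
  | .sw p => D.nk.den (.sw p.1.1 p.1.2)
  | .re d => D.nk.dre d.1
  | .im d => D.nk.dim d.1

/-- the basic invariants on `Y` -/
def yf : BB D → YF Y κ lam
  | .cy d => YF.z D (den D (.cy d))
  | .sw p => YF.sw D.F .one p.1.1 p.1.2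
  | .re d => YF.sw D.F (.re d.1.s) d.1.u d.1.v
  | .im d => YF.sw D.F (.im d.1.s) d.1.u d.1.v

/-! ### the Banach model at `β` -/

section model
variable (β : YC Y κ lam)

/-- `T*Y ⊗ g` -/
def pc (y : Y) : CL (Fm κ β.m.A) (Fm κ β.m.A) := idx (fun a b => D.F.P a b y) (β.m.pg y)
/-- `V⁺` -/
def pv (y : Y) : CL β.m.V β.m.V := (cy β).m.pp D.B (y, 0)
/-- `T*Z ⊗ g ⊕ V⁺` -/
def ph : Y → CL (Cf (Option κ) (Fin β.m.N)) (Cf (Option κ) (Fin β.m.N)) :=
  Map77.ps (fun y => (cy β).m.p1 D.B (y, 0)) (pv D β)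

abbrev CC (j : ℕ) : Type := D.F.H j (pc D β) × D.F.H j (pv D β)
abbrev GG (j : ℕ) : Type := D.F.H j β.m.pg
abbrev XX (j : ℕ) : Type := D.F.H j (ph D β)

/-- smooth variations -/
abbrev SP : Type := Sec I3 (pc D β) × Sec I3 (pv D β)

/-- the point of the model -/
def pt (j : ℕ) : SP D β →ₗ[ℝ] CC D β j := (D.F.toH j _).prodMap (D.F.toH j _)

variable {D β} in
/-- the configuration of a smooth variation -/
def cf (y : SP D β) : YC Y κ lam := vy β y.1.1 y.2.1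

/-- inclusion of levels -/
def iC (j l : ℕ) : CC D β j →L[ℝ] CC D β l := (D.F.incl j l _).prodMap (D.F.incl j l _)

/-- `T` is smooth and represents the gradient of `u` -/
def RpT (u : YF Y κ lam) (j l : ℕ) (T : CC D β j → CC D β l) : Prop :=
  ContDiff ℝ ∞ T ∧ ∀ (y : SP D β) (x : Y),
    D.F.val l _ (T (pt D β j y)).1 x = pc D β x (u.gA (cf y) x) ∧
    D.F.val l _ (T (pt D β j y)).2 x = pv D β x (u.gP (cf y) x)

/-- `f` is continuous and represents `u` -/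
def Rpf (u : YF Y κ lam) (j : ℕ) (f : CC D β j → ℝ) : Prop :=
  Continuous f ∧ ∀ y : SP D β, f (pt D β j y) = u.f (cf y)

/-- the gradient on the model -/
def mT (u : YF Y κ lam) (j l : ℕ) : CC D β j → CC D β l := Classical.epsilon (RpT D β u j l)

/-- the functional on the model -/
def mf (u : YF Y κ lam) (j : ℕ) : CC D β j → ℝ := Classical.epsilon (Rpf D β u j)

/-- the `L²` pairing of two levels -/
def pr0 {V : Type} [NormedAddCommGroup V] [InnerProductSpace ℝ V] (F : Pre I3 Y κ) (j l : ℕ)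
    (p : Y → V →L[ℝ] V) : F.H j p →L[ℝ] F.H l p →L[ℝ] ℝ :=
  (innerSL ℝ : F.H 0 p →L[ℝ] F.H 0 p →L[ℝ] ℝ).bilinearComp (F.incl j 0 p) (F.incl l 0 p)

/-- the `L²` pairing -/
def bb (j l : ℕ) : CC D β j →L[ℝ] CC D β l →L[ℝ] ℝ :=
  (pr0 D.F.toPre j l _).bilinearComp (ContinuousLinearMap.fst ℝ _ _) (ContinuousLinearMap.fst ℝ _ _) +
  (pr0 D.F.toPre j l _).bilinearComp (ContinuousLinearMap.snd ℝ _ _) (ContinuousLinearMap.snd ℝ _ _)

/-- `-∇ ξ` -/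
def dga (ξ : Y → β.m.A) (y : Y) : Fm κ β.m.A := WithLp.toLp 2 fun a => -nab I3 D.F.e (an β) a ξ y

/-- `ξ Φ` -/
def dgp (ξ : Y → β.m.A) (y : Y) : β.m.V := opL (ξ y) (β.Φ y)

/-- the adjoint of `dga` -/
def sga (α : Y → Fm κ β.m.A) (y : Y) : β.m.A :=
  ∑ a, (nab I3 D.F.e (an β) a (fun z => α z a) y + D.F.dv a y • α y a)

/-- the adjoint of `dgp` -/
def sgp (φ : Y → β.m.V) (y : Y) : β.m.A := β.m.q y (φ y) (β.Φ y)

/-- the infinitesimal gauge action at the base point, the form part multiplied by `c` -/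
def d0 (c : ℝ) (j : ℕ) : GG D β (j + 1) →L[ℝ] CC D β j :=
  (c • D.F.lift (j + 1) j _ _ (dga D β)).prod (D.F.lift (j + 1) j _ _ (dgp β))

/-- the gauge fixing -/
def sg (j : ℕ) : CC D β (j + 1) →L[ℝ] GG D β j :=
  ((1 / 4 : ℝ) • D.F.lift (j + 1) j _ _ (sga D β)).coprod (D.F.lift (j + 1) j _ _ (sgp β))

/-- the infinitesimal gauge action -/
def dv (j : ℕ) (v : CC D β j) : GG D β (j + 1) →L[ℝ] CC D β j :=
  d0 D β 1 j +
    (D.F.lift₂ j (j + 1) _ _ _ j (fun (α : Y → Fm κ β.m.A) ξ y =>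
      WithLp.toLp 2 fun a => -adc (opL (α y a)) (ξ y))
      v.1).prod (D.F.lift₂ j (j + 1) _ _ _ j (fun φ ξ y => opL (ξ y) (φ y)) v.2)

open Classical in
/-- a function as an element of `H` -/
def ofS {V : Type} [NormedAddCommGroup V] [InnerProductSpace ℝ V] (F : Pre I3 Y κ) (j : ℕ)
    (p : Y → V →L[ℝ] V) (u : Y → V) : F.H j p := if h : u ∈ Sec I3 p then F.toH j p ⟨u, h⟩ else 0

/-- the infinitesimal circle action -/
def jv (j : ℕ) (v : CC D β j) : CC D β j :=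
  (0, D.F.mulH j _ _ (fun _ => β.m.J) v.2 + ofS D.F.toPre j _ fun y => β.m.J (β.Φ y))

variable (κ) in
/-- forms, spinors, `dt`-components in the total fibre -/
def eA (N : ℕ) : CL (Fm κ (HS (Fin N))) (Cf (Option κ) (Fin N)) := i1 _ _ ∘L up κ _
variable (κ) in
def eP (N : ℕ) : CL (Eu (Fin N)) (Cf (Option κ) (Fin N)) := i2 _ _
variable (κ) in
def eG (N : ℕ) : CL (HS (Fin N)) (Cf (Option κ) (Fin N)) := i1 _ _ ∘L ij _ none

/-- the total space, forms multiplied by `c` -/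
def emb (c : ℝ) (j : ℕ) : CC D β j × GG D β j →L[ℝ] XX D β j :=
  ((c • D.F.mulH j _ _ fun _ => eA κ _).coprod (D.F.mulH j _ _ fun _ => eP κ _)).coprod
    (c • D.F.mulH j _ _ fun _ => eG κ _)

/-- the extended Hessian on functions -/
def lf (w : Y → Cf (Option κ) (Fin β.m.N)) (y : Y) : Cf (Option κ) (Fin β.m.N) :=
  let α : Y → Fm κ β.m.A := fun z => (2 : ℝ) • dw κ _ (fa (w z))
  let φ : Y → β.m.V := fun z => fp (w z)
  let m : Y → β.m.A := fun z => (2 : ℝ) • fa (w z) none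
  (2 : ℝ) • eA κ _ (deriv (F := Fm κ β.m.A) (fun ε : ℝ => (YF.z0 D).gA (vy β (ε • α) (ε • φ)) y) 0 +
      (1 / 4 : ℝ) • dga D β m y) +
    eP κ _ (deriv (F := β.m.V) (fun ε : ℝ => (YF.z0 D).gP (vy β (ε • α) (ε • φ)) y) 0 + dgp β m y) +
    (2 : ℝ) • eG κ _ ((1 / 4 : ℝ) • sga D β α y + sgp β φ y)

/-- the generator of the stabiliser circle on `g` and on spinors -/
def xa (ξ : Y → β.m.A) (y : Y) : CL β.m.A β.m.A := -adc (opL (ξ y))
def xs (ξ : Y → β.m.A) (y : Y) : CL β.m.V β.m.V := β.m.J - opL (ξ y)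

def xC (ξ : Y → β.m.A) (j : ℕ) : CC D β j →L[ℝ] CC D β j :=
  (D.F.mulH j _ _ fun y => onv κ (xa β ξ y)).prodMap (D.F.mulH j _ _ (xs β ξ))
def xG (ξ : Y → β.m.A) (j : ℕ) : GG D β j →L[ℝ] GG D β j := D.F.mulH j _ _ (xa β ξ)
def xX (ξ : Y → β.m.A) (j : ℕ) : XX D β j →L[ℝ] XX D β j :=
  D.F.mulH j _ _ fun y => sm2 (onv (Option κ) (xa β ξ y)) (xs β ξ y)

end model

/-- admissible configurations -/
abbrev XY : Type := {β : YC Y κ lam // D.Adm β}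

/-- the type of group actions -/
abbrev ActT (k : ℕ) : Type := ∀ o : XY D, GG D o.1 (k + 2) × ℝ → CC D o.1 (k + 1) → CC D o.1 (k + 1)

/-- the type of spectral flows -/
abbrev SfT : Type := ∀ o : XY D, (XX D o.1 0 →L[ℝ] XX D o.1 0) → (XX D o.1 0 →L[ℝ] XX D o.1 0) → ℤ

/-- **The model.** -/
def gm (k : ℕ) (act : ActT D k) (sf : SfT D) : GM (Bc D) (Bw D) (B2 D) where
  X := XY D
  eqv x y := D.Eqv x.1 y.1
  SI x := ¬ Lin D.Z (cy x.1) univ
  C o := CC D o.1 (k + 1)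
  E o := CC D o.1 k
  L o := GG D o.1 (k + 2)
  M o := GG D o.1 (k + 1)
  H o := GG D o.1 k
  X₁ o := XX D o.1 1
  X₀ o := XX D o.1 0
  F0 o := mT D o.1 (YF.z0 D) (k + 1) k
  f j o := mf D o.1 (yf D j) (k + 1)
  τ j o v := iC D o.1 (k + 1) k (mT D o.1 (yf D j) (k + 1) (k + 1) v)
  b o := bb D o.1 k (k + 1)
  ic _ := ((1 / 4 : ℝ) • D.F.incl (k + 1) k _).prodMap (D.F.incl (k + 1) k _)
  ih _ := (1 / 4 : ℝ) • D.F.incl (k + 1) k _
  im _ := D.F.incl (k + 2) (k + 1) _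
  D o := d0 D o.1 (1 / 4) k
  σ o := sg D o.1 k
  d o := dv D o.1 (k + 1)
  J o := jv D o.1 (k + 1)
  act := act
  Rep o v x := ∃ y : SP D o.1, pt D o.1 (k + 1) y = v ∧ D.Eqv x.1 (cf y)
  Smo o := LinearMap.range (pt D o.1 (k + 1))
  i _ := D.F.incl 1 0 _
  L0 o := D.F.lift 1 0 _ _ (lf D o.1)
  j1 o := D.F.incl (k + 1) 1 _ ∘L emb D o.1 (1 / 2) (k + 1)
  j0 o := D.F.incl k 0 _ ∘L emb D o.1 2 k
  sf := sf
  XC o ξ := xC D o.1 (D.F.val _ _ ξ) (k + 1)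
  XE o ξ := xC D o.1 (D.F.val _ _ ξ) k
  XL o ξ := xG D o.1 (D.F.val _ _ ξ) (k + 2)
  XM o ξ := xG D o.1 (D.F.val _ _ ξ) (k + 1)
  XH o ξ := xG D o.1 (D.F.val _ _ ξ) k
  X1 o ξ := xX D o.1 (D.F.val _ _ ξ) 1
  X0 o ξ := xX D o.1 (D.F.val _ _ ξ) 0

theorem vy_zero (β : YC Y κ lam) : vy β 0 0 = β := by
  obtain ⟨m, W, Φ, z⟩ := β
  simp only [vy, vr, Pi.zero_apply, map_zero, add_zero]
  congr 1
  funext a x
  simp [Md.addC]

variable {D} in
theorem cf_zero (β : YC Y κ lam) : cf (0 : SP D β) = β := vy_zero β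

theorem YF.congr (u : YF Y κ lam) (β : YC Y κ lam) {W : β.m.Cn} {Φ : Y → β.m.V} (h1 : W = β.W)
    (h2 : Φ = β.Φ) : u.gA ⟨β.m, W, Φ, β.z⟩ = u.gA β ∧ u.gP ⟨β.m, W, Φ, β.z⟩ = u.gP β := by
  subst h1 h2; exact ⟨rfl, rfl⟩

variable {D} in
theorem g_cf_zero (u : YF Y κ lam) (β : YC Y κ lam) :
    u.gA (cf (0 : SP D β)) = u.gA β ∧ u.gP (cf (0 : SP D β)) = u.gP β :=
  u.congr β (funext₂ fun a x => by simp [Md.addC]) (funext fun x => by simp)

end Crest.Agent.X212.Crt72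
end
end

-- ▼ part X212/Crt72/Props

/-!
# Row 212, CRIT (helper72): the leaves
-/

set_option autoImplicit false
set_option linter.unusedSectionVars false
noncomputable section
open scoped Manifold ContDiff Topology InnerProductSpace
open MeasureTheory Set Function Filter

namespace Crest.Agent.X212.Crt72
open An Cyf70 Dgr80 Nd18
open Map77 (Cf)

variable {E3 : Type} [NormedAddCommGroup E3] [NormedSpace ℝ E3] [FiniteDimensional ℝ E3]
  [MeasurableSpace E3] [BorelSpace E3]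
  {H3 : Type} [TopologicalSpace H3] {I3 : ModelWithCorners ℝ E3 H3} [I3.Boundaryless]
  {Y : Type} [TopologicalSpace Y] [ChartedSpace H3 Y] [IsManifold I3 ∞ Y] [T2Space Y]
  [MeasurableSpace Y] [BorelSpace Y] [SecondCountableTopology Y] [CompactSpace Y]
  {κ : Type} [Fintype κ] {lam : Type} [Fintype lam] (D : YD I3 Y κ lam)

/-- standing hypotheses -/
structure HY : Prop where
  ok : D.OK
  conn : ConnectedSpace Y
  dim : Module.finrank ℝ E3 = 3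

/-- the indices of the invariants which vanish with the spinor -/
def Sw {D : YD I3 Y κ lam} (j : BB D) : Prop := ∀ c, j ≠ .cy c

/-- `t`-independent isomorphisms -/
def YIso (β β' : YC Y κ lam) (w : Y → CL β.m.V β'.m.V) (ζ : Circle) : Prop :=
  CEq D.Z (cy β) (cy β') univ id (fun x b a => D.B.P b a x) D.B.l (fun x => w x.1) ζ

/-- the derivative of `u` at `β` in the direction `(α, φ)` -/
def ipg (u : YF Y κ lam) (β : YC Y κ lam) (α : Y → Fm κ β.m.A) (φ : Y → β.m.V) : ℝ :=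
  ∫ y, (⟪u.gA β y, α y⟫_ℝ + ⟪u.gP β y, φ y⟫_ℝ) ∂D.F.μ

/-- the perturbed equation on `Y` with the coefficients `c` -/
def SolY (S : Finset (BB D)) (c : BB D → ℝ) (β : YC Y κ lam) : Prop := ∀ y,
  pc D β y ((YF.z0 D).gA β y + ∑ j ∈ S, c j • (yf D j).gA β y) = 0 ∧
  pv D β y ((YF.z0 D).gP β y + ∑ j ∈ S, c j • (yf D j).gP β y) = 0

/-- the extended Hessian is a symmetric operator of Dirac type -/
def OpY (β : YC Y κ lam) : Prop := ∃ σ B C,
  (⟨ph D β, ph D β, σ, B⟩ : An.Op Y κ (Cf (Option κ) (Fin β.m.N)) (Cf (Option κ) (Fin β.m.N))).Good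
    D.F C ∧
  (⟨ph D β, ph D β, σ, B⟩ : An.Op Y κ (Cf (Option κ) (Fin β.m.N)) (Cf (Option κ) (Fin β.m.N))).Cliff
    D.F ∧ (∀ w : Sec I3 (ph D β), D.F.op σ B w.1 = lf D β w.1) ∧
  ∀ w w' : Sec I3 (ph D β), ∫ y, ⟪lf D β w.1 y, w'.1 y⟫_ℝ ∂D.F.μ = ∫ y, ⟪w.1 y, lf D β w'.1 y⟫_ℝ ∂D.F.μ

/-- output of OP3 -/
def Op3 : Prop := ∀ β, D.Adm β → OpY D β ∧ ∀ k, 7 ≤ k → ∃ T, RpT D β (YF.z0 D) (k + 1) k T

/-- a basic invariant is smooth on the models, natural and bounded -/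
structure Sm1 (j : BB D) : Prop where
  T : ∀ β, D.Adm β → ∀ k, 7 ≤ k → ∃ T, RpT D β (yf D j) (k + 1) (k + 1) T
  f : ∀ β, D.Adm β → ∀ k, 7 ≤ k → ∃ f, Rpf D β (yf D j) (k + 1) f
  grad : ∀ β, D.Adm β → ∀ y : SP D β,
    HasDerivAt (fun ε : ℝ => (yf D j).f (cf (ε • y))) (ipg D (yf D j) β y.1.1 y.2.1) 0
  hs : ∀ k, 7 ≤ k → ∀ act sf o, ∃ K, (gm D k act sf).IsHs o (fderiv ℝ ((gm D k act sf).τ j o) 0) K
  bd : ∃ R, ∀ β, D.Adm β → |(yf D j).f β| ≤ R ∧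
    Mp86.Ctl D.F (Mp86.gr2 I3 D.F.e (cn β) β.Φ) 1 R (cn β) ((yf D j).gP β) ∧
    ∃ g, Mp86.Dom D.F R g ∧ ∀ y, ‖(yf D j).gA β y‖ ^ 2 ≤ R + g y

/-- the invariants on the cylinder are those on `Y` -/
def Lift (j : BB D) : Prop := ∀ β, D.Adm β →
  (∀ δ t : ℝ, 0 < δ → wn D.Z.μ D.nk.τ δ ((den D j).h (cy β)) t = (yf D j).f β) ∧
  ∀ (a : ℝ) (x : Y × ℝ), dw κ _ ((den D j).gA (cy β) (fun _ => a) x) = a • (yf D j).gA β x.1 ∧
    (den D j).gP (cy β) (fun _ => a) x = a • (yf D j).gP β x.1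

/-- naturality -/
structure Nat : Prop where
  eqv : ∀ β β', D.Adm β → D.Adm β' → D.Eqv β β' → ∃ w ζ, YIso D β β' w ζ
  A : ∀ β β' w ζ, D.Adm β → D.Adm β' → YIso D β β' w ζ → ∀ y a,
    (YF.z0 D).gA β' y a = Eqv71.cj (w y) ((YF.z0 D).gA β y a)
  P : ∀ β β' w ζ, D.Adm β → D.Adm β' → YIso D β β' w ζ → ∀ y,
    (YF.z0 D).gP β' y = cs β'.m.J ζ (w y ((YF.z0 D).gP β y))
  sw : ∀ β β' w ζ, D.Adm β → D.Adm β' → YIso D β β' w ζ → ∀ j,
    (yf D (.sw j)).f β' = (yf D (.sw j)).f β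
  s : ∀ β β' w ζ, D.Adm β → D.Adm β' → YIso D β β' w ζ → ∀ j,
    (⟨(yf D (.re j)).f β', (yf D (.im j)).f β'⟩ : ℂ) =
      (ζ : ℂ) ^ 2 * ⟨(yf D (.re j)).f β, (yf D (.im j)).f β⟩

/-- naturality of the cyclic invariants -/
def NatC : Prop := ∀ β β' w ζ, D.Adm β → D.Adm β' → YIso D β β' w ζ → ∀ j,
  (yf D (.cy j)).f β' = (yf D (.cy j)).f β

/-- variations are admissible -/
def AdmV : Prop := ∀ β, D.Adm β → ∀ y : SP D β, D.Adm (cf y)

/-! ### the leaves -/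

def Op3Stmt : Prop := HY D → Op3 D
def LinStmt : Prop := HY D → Op3 D → ∀ k, 7 ≤ k → ∀ act sf, (gm D k act sf).AxOp
def SfStmt : Prop := HY D → Op3 D → ∃ sf, ∀ k act, (gm D k act sf).AxSf
def NatStmt : Prop := HY D → AdmV D ∧ Nat D
def SmsStmt : Prop := HY D → AdmV D → ∀ j, Sw j → Sm1 D j
def LiftStmt : Prop := HY D → ∀ j, Sw j → Lift D j
def CycStmt : Prop := HY D → AdmV D → NatC D ∧ ∀ j, Sm1 D (.cy j) ∧ Lift D (.cy j)
def RegStmt : Prop := HY D → AdmV D → Op3 D → (∀ j, Sm1 D j) →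
  ∀ k, 7 ≤ k → ∀ act sf, (gm D k act sf).AxSm
def GrpStmt : Prop := HY D → AdmV D → Nat D → NatC D → Op3 D → (∀ j, Sm1 D j) →
  ∀ k, 7 ≤ k → ∃ act, ∀ sf, (gm D k act sf).AxGr
def SplStmt : Prop := HY D → ∀ k, 7 ≤ k → ∀ act sf, (gm D k act sf).AxSp
def CptStmt : Prop := HY D → (∀ j, Sm1 D j) → (∀ j, Lift D j) →
  ∀ (S : Finset (BB D)) (R : ℝ) (ι : Type) (𝒰 : Ultrafilter ι) (c : ι → BB D → ℝ)
    (β : ι → YC Y κ lam), (∀ n j, |c n j| ≤ R) → (∀ n, D.Adm (β n) ∧ SolY D S (c n) (β n)) →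
  ∃ (o : YC Y κ lam) (y : ι → SP D o), D.Adm o ∧ (∀ k, Tendsto (fun n => pt D o k (y n)) 𝒰 (𝓝 0)) ∧
    ∀ᶠ n in (𝒰 : Filter ι), D.Eqv (β n) (cf (y n))
def DerStmt : Prop := HY D → ∀ β, D.Adm β → ¬D.Zr β → ∀ y : SP D β,
  (∀ j, Sw j → ipg D (yf D j) β y.1.1 y.2.1 = 0) →
  ∃ ξ : Sec I3 β.m.pg, y.1.1 = dga D β ξ.1 ∧ y.2.1 = dgp β ξ.1
def SepStmt : Prop := HY D → ∀ β β', D.Adm β → D.Adm β' → ¬D.Zr β →
  (∀ j, Sw j → (yf D j).f β = (yf D j).f β') → D.Eqv β β'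
def DerIStmt : Prop := HY D → ∀ β, D.Adm β → D.Zr β → ¬D.Ln β → ∀ α : Sec I3 (pc D β),
  (∀ j, ipg D (yf D (.cy j)) β α.1 0 = 0) → ∃ ξ : Sec I3 β.m.pg, α.1 = dga D β ξ.1
def ImStmt : Prop := HY D → AdmV D → (∀ j, Sw j → Sm1 D j) →
  ∀ k, 7 ≤ k → ∀ act sf, (gm D k act sf).AxIM
def SgStmt : Prop := HY D → Op3 D → (∀ j, Sw j → Sm1 D j) →
  ∀ k, 7 ≤ k → ∀ act sf, (gm D k act sf).AxSg
def NrStmt : Prop := HY D → D.NoRed → Op3 D → ∀ k, 7 ≤ k → ∀ act sf, (gm D k act sf).AxNR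

/-- `N` realises the perturbation `q` -/
structure Rz {k : ℕ} {act : ActT D k} {sf : SfT D} (q : (gm D k act sf).Fd) (N : ND Y lam) :
    Prop where
  ok : N.OK D
  adm : ∀ β, N.Crit D β → D.Adm β
  crit : ∀ x : XY D, N.Crit D x.1 ↔ (gm D k act sf).Sol q x
  nd : ∀ x : XY D, (gm D k act sf).ND q x → N.Nondeg D x.1
  val : ∀ (x : XY D) (y : SP D x.1),
    q x (pt D x.1 (k + 1) y) = N.φ (N.cx ((N.dg D.nk).Iv D.Z (cy (cf y)) 0))
  gA : ∀ (x : XY D) (y : SP D x.1) (z : Y × ℝ),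
    D.F.val k _ ((gm D k act sf).gr q x (pt D x.1 (k + 1) y)).1 z.1 =
      pc D x.1 z.1 (dw κ _ ((N.dg D.nk).gA D.Z (cy (cf y)) z))
  gP : ∀ (x : XY D) (y : SP D x.1) (z : Y × ℝ),
    D.F.val k _ ((gm D k act sf).gr q x (pt D x.1 (k + 1) y)).2 z.1 =
      pv D x.1 z.1 ((N.dg D.nk).gP D.Z (cy (cf y)) z)

def ExpStmt : Prop := HY D → AdmV D → Op3 D → (∀ j, Sm1 D j) → (∀ j, Lift D j) →
  ∀ δ : ℝ, 0 < δ → δ ≤ 1 / 8 → ∃ (ny : ℕ) (yy : Fin ny → Y → ℝ), ∀ k, 7 ≤ k → ∀ act sf,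
    (gm D k act sf).AxOp → (gm D k act sf).AxSm → ∀ q ∈ (gm D k act sf).Rl,
      ∃ N : ND Y lam, Rz D q N ∧ N.δ = δ ∧ N.ny = ny ∧ HEq N.y yy

end Crest.Agent.X212.Crt72
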