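import Crest.Agent.X212.Reg44.Main_Mg
import Crest.Agent.X212.Lin97.Spl
import Crest.Agent.X212.Op78.Main
import Crest.Agent.X212.Ms1.Sf
import Crest.Agent.X212.Cyl58.SmD
import Crest.Agent.X212.Spn45.Smi
import Crest.Agent.X212.Ax37.Main

/-!
# Row 212, CRIT (helper72): critical data on `Y` with the mass rules
-/

set_option autoImplicit false
set_option linter.unusedSectionVars false
noncomputable section
open scoped Manifold ContDiff Topology InnerProductSpace BoundedContinuousFunction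
open MeasureTheory Set Function Filter

namespace Crest.Agent.X212.Crt72
open An Cyf70 Dgr80 Nd18 Lin97

variable {E3 : Type} [NormedAddCommGroup E3] [NormedSpace ℝ E3] [FiniteDimensional ℝ E3]
  [MeasurableSpace E3] [BorelSpace E3]
  {H3 : Type} [TopologicalSpace H3] {I3 : ModelWithCorners ℝ E3 H3} [I3.Boundaryless]
  {Y : Type} [TopologicalSpace Y] [ChartedSpace H3 Y] [IsManifold I3 ∞ Y] [T2Space Y]
  [MeasurableSpace Y] [BorelSpace Y] [SecondCountableTopology Y] [CompactSpace Y]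
  {κ : Type} [Fintype κ] {lam : Type} [Fintype lam] {D : YD I3 Y κ lam}
  {k : ℕ} {act : ActT D k} {sf : SfT D}

theorem pi_iff (h : HY D) (x : XY D) : (gm D k act sf).PI x 0 ↔ D.Zr x.1 :=
  Hy.jv_zero ⟨h, x.2⟩

theorem fix_iff (hY : HY D) (x : XY D) : (gm D k act sf).Fixv x 0 ↔ D.Fx x.1 := by
  have h : Hy D x.1 := ⟨hY, x.2⟩
  constructor
  · rintro ⟨ξ, e⟩
    obtain ⟨η, -, h0, h1⟩ := h.fix e
    refine ⟨fun z => η.1 z.1, ⟨(sm_fst η.2.1).contMDiffOn,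
      fun z _ => pg_g (β := x.1) (x := z.1) (η.2.2.2 _), ?_⟩, fun z _ => h1 _⟩
    rintro (_ | a) z -
    · refine (nab_cy0 (D := D) (x.1.m.adW x.1.W) η.2.1 z).trans ?_
      rw [Md.adW, h.tmp, ← Wz78.adcL_apply, map_zero]; rfl
    · exact (nab_cy (D := D) (x.1.m.adW x.1.W) η.2.1 a z).trans
        (neg_eq_zero.1 (congrArg (fun α : Fm κ x.1.m.A => α a) (congrFun h0 z.1)))
  · rintro ⟨ξ, h1, h2⟩
    have s : Sm (IC I3) ξ := contMDiffOn_univ.1 h1.sm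
    let η : Sec I3 x.1.m.pg := ⟨fun y => ξ (y, 0), sec_mk (sm_slice_fst s 0)
      fun y => Wz78.pg_of_mem (h1.mem (y, 0) trivial)⟩
    refine ⟨D.F.toH _ _ η, ?_⟩
    change dv D x.1 (k + 1) 0 _ = jv D x.1 (k + 1) 0
    rw [dv_zero, d0_apply, h.jv_apply, one_smul, Prod.snd_zero, map_zero, zero_add,
      Sob92.RepT_toH' (h.rep_dga _) η 0 (funext fun y => Map77.fm_ext fun a => neg_eq_zero.2
        ((Op78.nab_slc (F := D.F) s a y).symm.trans (h1.par (some a) _ trivial))),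
      Sob92.RepT_toH' (h.rep_dgp _) η ⟨_, h.sec_J⟩ (funext fun y => h2 (y, 0) trivial), map_zero]

variable (D) in
/-- the leaves which are not yet proved -/
structure Lv : Prop where
  cyc : CycStmt D
  cpt : CptStmt D
  deri : DerIStmt D

theorem Lv.sm (L : Lv D) (h : HY D) (j) : Sm1 D j ∧ Lift D j := by
  have a := (Spn45.natStmt D h).1
  by_cases hj : Sw j
  · exact ⟨Cyl58.smsStmt D h a j hj, Spn45.liftStmt D h j hj⟩
  · obtain ⟨c, hc⟩ := not_forall.1 hj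
    exact not_not.1 hc ▸ (L.cyc h a).2 c

theorem Lv.all (L : Lv D) (h : HY D) (hn : D.NoRed) (hk : 7 ≤ k) :
    ∃ act : ActT D k, ∀ sf, (gm D k act sf).AxSf → (gm D k act sf).Ax := by
  obtain ⟨a, n⟩ := Spn45.natStmt D h
  have o := Op78.op3 D h
  have s := fun j => (L.sm h j).1
  obtain ⟨act, g⟩ := Cgr76.grpStmt D h a n (L.cyc h a).1 o s k hk
  refine ⟨act, fun sf hs => ?_⟩
  obtain ⟨c1, c2, c3⟩ := Ax37.ax D h a o s (fun j => (L.sm h j).2) L.cpt Der92.der Der92.sep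
    L.deri k hk act sf
  exact ⟨lin D h o k hk act sf, hs, g sf, Reg44.regStmt D h a o s k hk act sf, spl D h k hk act sf,
    c1, Spn45.nrStmt D h hn o k hk act sf, c2, c3, Im23.im D h a (fun j _ => s j) k hk act sf,
    Sg31.sgStmt D h o (fun j _ => s j) k hk act sf⟩

/-- two realisations at a common nondegenerate fixed critical point -/
structure Two (q q' : (gm D k act sf).Fd) (N N' : ND Y lam) (x : XY D) : Prop where
  ax : (gm D k act sf).Ax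
  rl : q ∈ (gm D k act sf).Rl ∧ q' ∈ (gm D k act sf).Rl
  rz : Rz D q N ∧ Rz D q' N'
  fx : D.Fx x.1
  crit : N.Crit D x.1 ∧ N'.Crit D x.1
  bij : (gm D k act sf).Bij q x ∧ (gm D k act sf).Bij q' x
  irr : D.Zr x.1 → ¬D.Ln x.1

variable (D k sf) in
/-- the gradings change by the spectral flow -/
structure Lnk (δ : ℝ) (g d : ND Y lam → YC Y κ lam → ℤ) (ε : ℤ) : Prop where
  sq : ε * ε = 1
  g : ∀ act q q' N N' x, N.δ = δ → N'.δ = δ → Two (act := act) (sf := sf) q q' N N' x →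
    g N' x.1 = g N x.1 + ε * sf x ((gm D k act sf).hs q x) ((gm D k act sf).hs q' x)
  d : ∀ act q q' N N' x, N.δ = δ → N'.δ = δ → Two (act := act) (sf := sf) q q' N N' x → D.Zr x.1 →
    (∀ v, jv D x.1 (k + 1) v = 0 → (gm D k act sf).gr q' x v = (gm D k act sf).gr q x v) →
    d N' x.1 = d N x.1

/-- **CRIT** -/
theorem crit (L : Lv D) (h : HY D) (hn : D.NoRed) (hk : 7 ≤ k)
    (hs : ∀ act, (gm D k act sf).AxSf) {δ : ℝ} (h0 : 0 < δ) (h1 : δ ≤ 1 / 8)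
    {g d : ND Y lam → YC Y κ lam → ℤ} {ε : ℤ} (K : Lnk D k sf δ g d ε) (kp : YC Y κ lam → ℝ) (c : ℤ)
    (R : YDen Y → ℝ) :
    ∃ (N : ND Y lam) (S : N.CD D), N.OK D ∧ N.δ = δ ∧
      S.RuleI ⟨fun i => kp (S.β i), fun i => g N (S.β i), fun i => d N (S.β i)⟩ c ∧
      S.RuleS ⟨fun i => kp (S.β i), fun i => g N (S.β i), fun i => d N (S.β i)⟩ ∧
      (∃ (act : ActT D k) (q : (gm D k act sf).Fd), (gm D k act sf).Ax ∧ q ∈ (gm D k act sf).Rl ∧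
        Rz D q N) ∧ Spn45.SmI N R := by
  classical
  obtain ⟨act, A⟩ := L.all h hn hk
  have A := A sf (hs act)
  obtain ⟨ny, yy, X⟩ := Spn45.expStmt D h (Spn45.natStmt D h).1 (Op78.op3 D h) (fun j => (L.sm h j).1)
    (fun j => (L.sm h j).2) δ h0 h1
  have X := X k hk act sf A.op A.sm
  obtain ⟨q₁, m₁, ι₁, _, x₁, a₁, M⟩ := A.main fun j => R (Spn45.y0 (.inl j))
  obtain ⟨N₁, r₁, δ₁, -⟩ := X q₁ m₁
  obtain ⟨q₂, m₂, ι₂, _, x₂, a₂, M⟩ := M fun n =>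
    ε * (3 * d N₁ (x₁ n).1 / 8 + c - g N₁ (x₁ n).1 / 2)
  obtain ⟨N₂, r₂, δ₂, -⟩ := X q₂ m₂
  obtain ⟨q₃, m₃, ι₃, _, x₃, c₁, c₂, c₃, nd, b₁, b₂, b₃, q₀, l₀, e₀⟩ := M fun n =>
    ε * (⌊3 * (kp (x₂ n).1 - N₂.lv D (x₂ n).1 / (8 * Real.pi ^ 2))⌋ - g N₂ (x₂ n).1 / 2)
  obtain ⟨N, r, δ₃, sm⟩ := Spn45.exp_smi h (Spn45.natStmt D h).1 (Op78.op3 D h)
    (fun j => (L.sm h j).1) (fun j => (L.sm h j).2) h0 h1 hk A.op A.sm m₃ l₀ e₀
  let x : ι₁ ⊕ ι₂ ⊕ ι₃ → XY D := Sum.elim x₁ (Sum.elim x₂ x₃)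
  have so : ∀ i, (gm D k act sf).Sol q₃ (x i) := by
    rintro (i | i | i); exacts [(c₁.1 i).2, (c₂.1 i).2, (c₃.1 i).2]
  have ty : ∀ a b : XY D, D.Eqv a.1 b.1 → ((gm D k act sf).PI a 0 ↔ (gm D k act sf).PI b 0) ∧
      ((gm D k act sf).Fixv a 0 ↔ (gm D k act sf).Fixv b 0) := fun a b e => by
    obtain ⟨T, B, ζ, e1, -, e2⟩ := A.gr.rep b 0 a ((A.gr.rep0 b a).2 e)
    exact ⟨(e1.J_iff 0).symm.trans (by rw [e2]; rfl), (e1.fix_iff 0).symm.trans (by rw [e2])⟩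
  have p₁ := fun i => (c₁.1 i).1
  have p₂ := fun i => (c₂.1 i).1
  have p₃ := fun i => (c₃.1 i).1
  refine ⟨N, ⟨ι₁ ⊕ ι₂ ⊕ ι₃, fun i => (x i).1, fun i => (r.crit _).2 (so i),
    fun i => r.nd _ (nd _ (so i)), fun γ hγ => ?_, fun i j e => ?_, fun i e => ?_⟩, r.ok, δ₃,
    fun i e => ?_, fun i e e' => ?_, ⟨act, q₃, A, m₃, r⟩, sm⟩
  · have s := (r.crit ⟨γ, r.adm γ hγ⟩).1 hγ
    by_cases e : (gm D k act sf).PI ⟨γ, r.adm γ hγ⟩ 0
    · exact (c₁.2.2 _ e s).elim fun n hn => ⟨.inl n, hn⟩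
    by_cases e' : (gm D k act sf).Fixv ⟨γ, r.adm γ hγ⟩ 0
    · exact (c₂.2.2 _ ⟨e, e'⟩ s).elim fun n hn => ⟨.inr (.inl n), hn⟩
    · exact (c₃.2.2 _ e' s).elim fun n hn => ⟨.inr (.inr n), hn⟩
  · have t := ty (x i) (x j) e
    rcases i with i | i | i <;> rcases j with j | j | j
    exacts [congrArg _ (c₁.2.1 i j e), ((p₂ j).1 (t.1.1 (p₁ i))).elim,
      (p₃ j (t.2.1 (p₁ i).fix)).elim, ((p₂ i).1 (t.1.2 (p₁ j))).elim,
      congrArg _ (congrArg _ (c₂.2.1 i j e)), (p₃ j (t.2.1 (p₂ i).2)).elim,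
      (p₃ i (t.2.2 (p₁ j).fix)).elim, (p₃ i (t.2.2 (p₂ j).2)).elim,
      congrArg _ (congrArg _ (c₃.2.1 i j e))]
  · have e := (pi_iff (k := k) (act := act) (sf := sf) h (x i)).2 e
    rcases i with i | i | i
    exacts [(b₁ i).1, ((p₂ i).1 e).elim, (p₃ i e.fix).elim]
  · have e' := (pi_iff (k := k) (act := act) (sf := sf) h (x i)).2 e
    rcases i with i | i | i
    · have T : Two q₁ q₃ N₁ N (x₁ i) := ⟨A, ⟨m₁, m₃⟩, ⟨r₁, r⟩, (fix_iff h _).1 e'.fix,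
        ⟨(r₁.crit _).2 (a₁ i).1, (r.crit _).2 (c₁.1 i).2⟩, ⟨(a₁ i).2, (b₁ i).2.1⟩,
        fun _ => (b₁ i).1⟩
      have e1 := K.g act _ _ _ _ _ δ₁ δ₃ T
      have e2 := K.d act _ _ _ _ _ δ₁ δ₃ T e (b₃ _)
      rw [show sf _ _ _ = _ from (b₁ i).2.2, mul_left_comm, ← mul_assoc ε, K.sq] at e1
      change g N (x₁ i).1 / 2 = 3 * d N (x₁ i).1 / 8 + c
      omega
    exacts [((p₂ i).1 e').elim, (p₃ i e'.fix).elim]
  · have e1 := (fix_iff (k := k) (act := act) (sf := sf) h (x i)).2 e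
    rcases i with i | i | i
    · exact (e' ((pi_iff h _).1 (p₁ i))).elim
    · have T : Two q₂ q₃ N₂ N (x₂ i) := ⟨A, ⟨m₂, m₃⟩, ⟨r₂, r⟩, e,
        ⟨(r₂.crit _).2 (a₂ i).1, (r.crit _).2 (c₂.1 i).2⟩, ⟨(a₂ i).2, (b₂ i).1⟩,
        fun z => (e' z).elim⟩
      have e2 := K.g act _ _ _ _ _ δ₂ δ₃ T
      rw [show sf _ _ _ = _ from (b₂ i).2.1, mul_left_comm, ← mul_assoc ε, K.sq] at e2
      have e3 : N.lv D (x₂ i).1 = N₂.lv D (x₂ i).1 := by
        have v := r.val (x₂ i) 0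
        have v₂ := r₂.val (x₂ i) 0
        rw [cf_zero, map_zero] at v v₂
        rw [ND.lv, ND.lv, ← v, ← v₂]
        exact congrArg _ (b₂ i).2.2
      change g N (x₂ i).1 / 2 = ⌊3 * (kp (x₂ i).1 - N.lv D (x₂ i).1 / (8 * Real.pi ^ 2))⌋
      rw [e3]
      omega
    · exact (p₃ i e1).elim

end Crest.Agent.X212.Crt72
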