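import Crest.Agent.X212.Crt72.Alg
import Crest.Agent.X212.Fin93.Main

-- ▼ part X212/Crt72/Mor
section

/-!
# Row 212, CRIT (helper72): morphisms, the infinitesimal symmetries, the splitting at fixed points
-/

set_option autoImplicit false
set_option linter.unusedSectionVars false
noncomputable section
open Set Filter Topology Function
open scoped ContDiff InnerProductSpace

namespace Crest.Agent.X212.Crt72

section pj
variable {V W : Type*} [NormedAddCommGroup V] [NormedSpace ℝ V] [NormedAddCommGroup W]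
  [NormedSpace ℝ W]

/-- the projector onto the kernel of `X`, `X ^ 3 = -l ^ 2 X` -/
def pk0 (X : V →L[ℝ] V) (l : ℝ) : V →L[ℝ] V := ContinuousLinearMap.id ℝ V + (l ^ 2)⁻¹ • X ∘L X

theorem pk0_apply (X : V →L[ℝ] V) (l : ℝ) (v : V) : pk0 X l v = v + (l ^ 2)⁻¹ • X (X v) := rfl

theorem pk0_of {X : V →L[ℝ] V} (l : ℝ) {v : V} (h : X v = 0) : pk0 X l v = v := by
  simp [pk0_apply, h]

theorem X_pk0 {X : V →L[ℝ] V} {l : ℝ} (hl : l ≠ 0) (h : ∀ v, X (X (X v)) = -(l ^ 2) • X v) (v : V) :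
    X (pk0 X l v) = 0 := by
  rw [pk0_apply, map_add, map_smul, h, smul_smul, mul_neg, inv_mul_cancel₀ (pow_ne_zero 2 hl)]
  simp

theorem pk0_comm {X : V →L[ℝ] V} {X' : W →L[ℝ] W} (l : ℝ) {T : V →L[ℝ] W}
    (h : ∀ v, T (X v) = X' (T v)) (v : V) : pk0 X' l (T v) = T (pk0 X l v) := by
  simp [pk0_apply, h]

end pj

namespace GM
variable {Bc Bw B2 : Type} {Q : GM Bc Bw B2}

variable (Q) in
/-- fixed by the circle -/
def Fixv (o : Q.X) (v : Q.C o) : Prop := ∃ ξ, Q.d o v ξ = Q.J o v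

variable (Q) in
/-- tangent to the fixed points -/
def Tn (o : Q.X) (v u : Q.C o) : Prop :=
  ∀ ξ, Q.d o v ξ = Q.J o v → Q.d o (v + u) ξ = Q.J o (v + u)

variable (Q) in
/-- kernel elements (tangent if `t`) killed by the family `g` are trivial -/
def On (t : Prop) (q : Q.Fd) {κ : Type} (g : κ → Q.Fd) (o : Q.X) (v : Q.C o) : Prop :=
  ∀ u, fderiv ℝ (Q.F q o) v u = 0 → (t → Q.Tn o v u) → (∀ w, Q.b o (Q.gr (g w) o v) u = 0) →
    ∃ η, u = Q.dd o v η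

/-- weak equivariance -/
def Eqv {o o' : Q.X} (T : Q.C o → Q.C o') (A : Q.C o ≃L[ℝ] Q.C o') (G : ∀ o, Q.C o → Q.E o) :
    Prop := ∀ v u, Q.b o' (G o' (T v)) (A u) = Q.b o (G o v) u

variable {o o' : Q.X} {T : Q.C o → Q.C o'} {A : Q.C o ≃L[ℝ] Q.C o'} {ζ : ℂ}

namespace Mor
variable (h : Q.Mor T A)
include h

theorem der (v) : HasFDerivAt T (A : Q.C o →L[ℝ] Q.C o') v := by
  rw [show T = fun v => T 0 + A v from funext fun v => by rw [← h.aff, zero_add]]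
  exact A.hasFDerivAt.const_add _

theorem J_iff (v) : Q.J o' (T v) = 0 ↔ Q.J o v = 0 := by rw [← h.J, map_eq_zero_iff _ A.injective]

theorem fix_iff (v) : Q.Fixv o' (T v) ↔ Q.Fixv o v := by
  refine ⟨fun ⟨ξ, e⟩ => ?_, fun ⟨ξ, e⟩ => ?_⟩
  · obtain ⟨η, hη⟩ := h.d' ξ
    exact ⟨η, A.injective (by rw [hη, e, h.J])⟩
  · obtain ⟨η, hη⟩ := h.d ξ
    exact ⟨η, by rw [← hη, e, h.J]⟩

theorem tn {v u} (e : Q.Tn o v u) : Q.Tn o' (T v) (A u) := fun ξ hξ => by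
  obtain ⟨η, hη⟩ := h.d' ξ
  rw [← h.aff, ← hη, ← h.J, e η (A.injective (by rw [hη, hξ, h.J]))]

theorem dd' (v η') : ∃ η, A (Q.dd o v η) = Q.dd o' (T v) η' := by
  obtain ⟨η, hη⟩ := h.d' η'.1
  exact ⟨(η, η'.2), by rw [dd_apply, dd_apply, map_add, map_smul, hη, h.J]⟩

theorem inv (hp : Q.Ph T ζ) {q : Q.Fd} (hq : q ∈ Q.Rl) (v) : q o' (T v) = q o v := by
  have hz : ζ.re * ζ.re + ζ.im * ζ.im = 1 := by
    rw [← Complex.normSq_apply, Complex.normSq_eq_norm_sq, hp.1, one_pow]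
  have e1 : ∀ j, Q.f (.re j) o' (T v) = ζ.re * Q.f (.re j) o v - ζ.im * Q.f (.im j) o v :=
    fun j => congrArg Complex.re (hp.2 j v)
  have e2 : ∀ j, Q.f (.im j) o' (T v) = ζ.re * Q.f (.im j) o v + ζ.im * Q.f (.re j) o v :=
    fun j => congrArg Complex.im (hp.2 j v)
  induction hq using Algebra.adjoin_induction with
  | mem x hx =>
    rcases hx with ((⟨j, rfl⟩ | ⟨j, rfl⟩) | ⟨j, rfl⟩) | ⟨j, rfl⟩
    · exact h.cy j v
    · exact h.sw j v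
    · simp only [Pi.add_apply, Pi.mul_apply, e1, e2]
      linear_combination (Q.f (.re j.1) o v * Q.f (.re j.2) o v +
        Q.f (.im j.1) o v * Q.f (.im j.2) o v) * hz
    · simp only [Pi.sub_apply, Pi.mul_apply, e1, e2]
      linear_combination (Q.f (.re j.1) o v * Q.f (.im j.2) o v -
        Q.f (.im j.1) o v * Q.f (.re j.2) o v) * hz
  | algebraMap c => rfl
  | add x y _ _ hx hy => simp only [Pi.add_apply, hx, hy]
  | mul x y _ _ hx hy => simp only [Pi.mul_apply, hx, hy]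

end Mor

namespace Ax
variable (H : Q.Ax) {p q : Q.Fd}
include H

theorem eqv_gr (h : Q.Mor T A) (hp : Q.Ph T ζ) (hq : q ∈ Q.Rl) : Eqv T A (Q.gr q) := fun v u => by
  have h1 := (H.dq (Rl_le hq) o' (T v)).comp v (h.der v)
  rw [show q o' ∘ T = q o from funext (h.inv hp hq)] at h1
  exact congrArg (fun l : Q.C o →L[ℝ] ℝ => l u) (h1.unique (H.dq (Rl_le hq) o v))

theorem eqv_F (h : Q.Mor T A) (hp : Q.Ph T ζ) (hq : q ∈ Q.Rl) : Eqv T A (Q.F q) := fun v u => by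
  simp only [F, map_add, add_apply, h.F0, H.eqv_gr h hp hq v u]

theorem eqv_zero {G} (h : Eqv T A G) (v) : G o' (T v) = 0 ↔ G o v = 0 :=
  ⟨fun e => H.op.sepE fun u => by rw [← h, e]; simp, fun e => H.op.sepE fun u => by
    rw [← A.apply_symm_apply u, h, e]; simp⟩

theorem eqv_ker {G} (h : Q.Mor T A) (hG : Eqv T A G) (hd : ∀ o, ContDiff ℝ ∞ (G o)) {v u}
    (e : fderiv ℝ (G o) v u = 0) : fderiv ℝ (G o') (T v) (A u) = 0 := H.op.sepE fun w => by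
  have h1 := (((Q.b o').flip w).hasFDerivAt.comp _
    ((hd o').differentiable (by simp) _).hasFDerivAt).comp v (h.der v)
  have h2 := ((Q.b o).flip (A.symm w)).hasFDerivAt.comp v
    ((hd o).differentiable (by simp) _).hasFDerivAt
  have h3 := congrArg (fun l : Q.C o →L[ℝ] ℝ => l u) (h1.unique (h2.congr_of_eventuallyEq
    (.of_forall fun x => by simpa using hG x (A.symm w))))
  simpa [e] using h3

theorem on_mor (h : Q.Mor T A) (hp : Q.Ph T ζ) (hq : q ∈ Q.Rl) {t κ} {g : κ → Q.Fd}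
    (hg : ∀ w, g w ∈ Q.Rl) {v} (e : Q.On t q g o' (T v)) : Q.On t q g o v := fun u h1 h2 h3 => by
  obtain ⟨η', h4⟩ := e (A u) (H.eqv_ker h (H.eqv_F h hp hq) (H.sm_F (Rl_le hq)) h1)
    (fun ht => h.tn (h2 ht)) fun w => (H.eqv_gr h hp (hg w) v u).trans (h3 w)
  obtain ⟨η, h5⟩ := h.dd' v η'
  exact ⟨η, A.injective (h4.trans h5.symm)⟩

/-! ### infinitesimal symmetries -/

theorem der_act (o v η) : HasDerivAt (fun s : ℝ => Q.act o (s • η) v) (Q.dd o v η) 0 := by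
  have h1 : HasDerivAt (fun s : ℝ => (s • η, v)) (η, 0) 0 := by
    simpa using ((hasDerivAt_id (0 : ℝ)).smul_const η).prodMk (hasDerivAt_const 0 v)
  simpa [Function.comp_def] using
    (H.gr.strict o v).hasFDerivAt.comp_hasDerivAt_of_eq 0 h1 (by simp)

theorem lie {G : ∀ o, Q.C o → Q.E o} (hd : ∀ o, ContDiff ℝ ∞ (G o))
    (hG : ∀ η A, Q.Mor (Q.act o η) A → Eqv (Q.act o η) A G) (v u η) :
    Q.b o (fderiv ℝ (G o) v (Q.dd o v η)) u + Q.b o (G o v) (Q.dd o (v + u) η - Q.dd o v η) = 0 := by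
  have h1 := ((Q.b o).hasFDerivAt.comp_hasDerivAt 0
    (((hd o).differentiable (by simp) v).hasFDerivAt.comp_hasDerivAt_of_eq 0 (H.der_act o v η)
      (by simp [H.gr.act0]))).clm_apply ((H.der_act o (v + u) η).sub (H.der_act o v η))
  have h2 := h1.unique ((hasDerivAt_const 0 (Q.b o (G o v) u)).congr_of_eventuallyEq
    (.of_forall fun s => by
      obtain ⟨A, hA⟩ := H.gr.mor o (s • η)
      simpa [hA.aff] using hG _ A hA v u))
  simpa [H.gr.act0] using h2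

theorem lie_F (hq : q ∈ Q.Rl) (v u η) : Q.b o (fderiv ℝ (Q.F q o) v (Q.dd o v η)) u +
    Q.b o (Q.F q o v) (Q.dd o (v + u) η - Q.dd o v η) = 0 :=
  H.lie (H.sm_F (Rl_le hq)) (fun η _ h => H.eqv_F h (H.gr.ph o η) hq) v u η

theorem dF_dd (hq : q ∈ Q.Rl) {v} (hv : Q.F q o v = 0) (η) :
    fderiv ℝ (Q.F q o) v (Q.dd o v η) = 0 :=
  H.op.sepE fun u => by simpa [hv] using H.lie_F hq v u η

theorem dq_act (hq : q ∈ Q.Bl) (v η) : HasDerivAt (fun s : ℝ => q o (Q.act o (s • η) v))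
    (Q.b o (Q.gr q o v) (Q.dd o v η)) 0 :=
  (H.dq hq o v).comp_hasDerivAt_of_eq 0 (H.der_act o v η) (by simp [H.gr.act0])

theorem gr_dd (hq : q ∈ Q.Rl) (v η) : Q.b o (Q.gr q o v) (Q.dd o v η) = 0 :=
  (H.dq_act (Rl_le hq) v η).unique ((hasDerivAt_const 0 (q o v)).congr_of_eventuallyEq
    (.of_forall fun _ => (H.gr.mor o _).choose_spec.inv (H.gr.ph o _) hq v))

theorem s_dd (j) (v η) : Q.b o (Q.τ (.re j) o v) (Q.dd o v η) = -(2 * η.2) * Q.f (.im j) o v ∧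
    Q.b o (Q.τ (.im j) o v) (Q.dd o v η) = 2 * η.2 * Q.f (.re j) o v := by
  have h0 : HasDerivAt (fun s : ℝ => Complex.exp (2 * (s * η.2 : ℝ) * Complex.I) * Q.s j o v)
      (2 * η.2 * Complex.I * Q.s j o v) 0 := by
    simpa using ((((((hasDerivAt_id (0 : ℝ)).mul_const η.2).ofReal_comp).const_mul
      (2 : ℂ)).mul_const Complex.I).cexp).mul_const (Q.s j o v)
  have h1 : HasDerivAt (fun s : ℝ => Q.s j o (Q.act o (s • η) v)) _ 0 :=
    h0.congr_of_eventuallyEq (.of_forall fun s => (H.gr.ph o (s • η)).2 j v)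
  have h2 := (H.dq_act (f_mem (.re j)) v η).unique
    (Complex.reCLM.hasFDerivAt.comp_hasDerivAt 0 h1)
  have h3 := (H.dq_act (f_mem (.im j)) v η).unique
    (Complex.imCLM.hasFDerivAt.comp_hasDerivAt 0 h1)
  rw [H.gr_f] at h2 h3
  exact ⟨by simpa [s] using h2, by simpa [s] using h3⟩

theorem s_fix {v} (hv : Q.Fixv o v) (j) : Q.f (.re j) o v = 0 ∧ Q.f (.im j) o v = 0 := by
  obtain ⟨ξ, hξ⟩ := hv
  have h := H.s_dd j v (-ξ, 1)
  rw [dd_apply, map_neg, hξ, one_smul, neg_add_cancel, map_zero, map_zero] at h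
  constructor <;> linarith [h.1, h.2]

/-! ### the splitting -/

variable {ξ : Q.L o} {l : ℝ} (S : Q.Spl o ξ l)
include S

theorem dd_X (v) : Q.dd o v (-ξ, 1) = Q.XC o ξ v := by
  rw [dd_apply, S.C, map_neg, one_smul, neg_add_eq_sub]

theorem skewY (y z) : Q.BB o ((Q.XE o ξ).prodMap (Q.XH o ξ) y) z =
    -Q.BB o y ((Q.XC o ξ).prodMap (Q.XM o ξ) z) := by
  rw [BB_apply, BB_apply]
  exact (congrArg (⟪·, _⟫_ℝ) (S.j0 y.1 y.2)).trans ((S.skew _ _).trans (by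
    rw [← S.i, ← S.j1 z.1 z.2]; rfl))

theorem skewE (e u) : Q.b o (Q.XE o ξ e) u = -Q.b o e (Q.XC o ξ u) := by
  simpa [H.op.pair'] using H.skewY S (e, 0) (u, 0)

theorem ι_X (z) : Q.ι o ((Q.XC o ξ).prodMap (Q.XM o ξ) z) =
    (Q.XE o ξ).prodMap (Q.XH o ξ) (Q.ι o z) := H.op.inj0 o (by
  rw [← H.op.ij']
  exact (congrArg _ (S.j1 z.1 z.2)).trans ((S.i _).trans (by rw [H.op.ij']; exact (S.j0 _ _).symm)))

theorem cubeY (y) : (Q.XE o ξ).prodMap (Q.XH o ξ) ((Q.XE o ξ).prodMap (Q.XH o ξ)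
    ((Q.XE o ξ).prodMap (Q.XH o ξ) y)) = -(l ^ 2) • (Q.XE o ξ).prodMap (Q.XH o ξ) y :=
  H.op.inj0 o (by
    have e : ∀ y, Q.j0 o ((Q.XE o ξ).prodMap (Q.XH o ξ) y) = Q.X0 o ξ (Q.j0 o y) :=
      fun y => S.j0 y.1 y.2
    rw [map_smul, e, e, e, S.cube])

theorem cubeZ (z) : (Q.XC o ξ).prodMap (Q.XM o ξ) ((Q.XC o ξ).prodMap (Q.XM o ξ)
    ((Q.XC o ξ).prodMap (Q.XM o ξ) z)) = -(l ^ 2) • (Q.XC o ξ).prodMap (Q.XM o ξ) z :=
  H.op.injι o (by rw [map_smul, H.ι_X S, H.ι_X S, H.ι_X S, H.cubeY S])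

theorem cubeC (u) : Q.XC o ξ (Q.XC o ξ (Q.XC o ξ u)) = -(l ^ 2) • Q.XC o ξ u :=
  congrArg Prod.fst (H.cubeZ S (u, 0))

theorem σ_X (u) : Q.σ o (Q.XC o ξ u) = Q.XH o ξ (Q.σ o u) := by
  have h : ∀ z, Q.BB o (0, Q.σ o (Q.XC o ξ u)) z = Q.BB o (0, Q.XH o ξ (Q.σ o u)) z := fun z => by
    have h1 := H.skewY S (0, Q.σ o u) (0, z.2)
    simp only [ContinuousLinearMap.coe_prodMap', Prod.map_apply, map_zero] at h1
    rw [H.op.BB_split _ _ _ z.1 z.2, H.op.BB_split _ _ _ z.1 z.2, h1, H.adj, H.adj, S.D, H.skewE S,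
      neg_neg]
  exact congrArg Prod.snd (H.op.extY h)

theorem lie_X {G : ∀ o, Q.C o → Q.E o} (hd : ∀ o, ContDiff ℝ ∞ (G o))
    (hG : ∀ η A, Q.Mor (Q.act o η) A → Eqv (Q.act o η) A G) (v) :
    fderiv ℝ (G o) v (Q.XC o ξ v) = Q.XE o ξ (G o v) := H.op.extE fun u => by
  have h := H.lie hd hG v u (-ξ, 1)
  rw [H.dd_X S, H.dd_X S, map_add (Q.XC o ξ), add_sub_cancel_left] at h
  rw [H.skewE S, eq_neg_iff_add_eq_zero, h]

theorem d_X {G : ∀ o, Q.C o → Q.E o} (hd : ∀ o, ContDiff ℝ ∞ (G o))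
    (hG : ∀ η A, Q.Mor (Q.act o η) A → Eqv (Q.act o η) A G) (u) :
    fderiv ℝ (G o) 0 (Q.XC o ξ u) = Q.XE o ξ (fderiv ℝ (G o) 0 u) := by
  have h1 := (((contDiff_infty_iff_fderiv.1 (hd o)).2.differentiable (by simp)
    0).hasFDerivAt.clm_apply (Q.XC o ξ).hasFDerivAt).unique
    (((Q.XE o ξ).hasFDerivAt.comp 0 ((hd o).differentiable (by simp)
      0).hasFDerivAt).congr_of_eventuallyEq (.of_forall (H.lie_X S hd hG)))
  simpa using congrArg (fun l : Q.C o →L[ℝ] Q.E o => l u) h1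

theorem X_F0 (hq : q ∈ Q.Rl) : Q.XE o ξ (Q.F q o 0) = 0 := by
  rw [← H.lie_X S (H.sm_F (Rl_le hq)) (fun η _ h => H.eqv_F h (H.gr.ph o η) hq), map_zero, map_zero]

theorem gr_X (hq : q ∈ Q.Rl) (u) : Q.b o (Q.gr q o 0) (Q.XC o ξ u) = 0 := by
  rw [← neg_eq_zero, ← H.skewE S,
    ← H.lie_X S (H.sm_gr (Rl_le hq)) (fun η _ h => H.eqv_gr h (H.gr.ph o η) hq)]
  simp

theorem ext_X (hq : q ∈ Q.Rl) (z) :
    Q.ext o (fderiv ℝ (Q.F q o) 0) ((Q.XC o ξ).prodMap (Q.XM o ξ) z) =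
      (Q.XE o ξ).prodMap (Q.XH o ξ) (Q.ext o (fderiv ℝ (Q.F q o) 0) z) := by
  refine (ext_apply o _ (Q.XC o ξ z.1) (Q.XM o ξ z.2)).trans ?_
  rw [ext_apply o _ z.1 z.2, H.σ_X S, S.D,
    H.d_X S (H.sm_F (Rl_le hq)) (fun η _ h => H.eqv_F h (H.gr.ph o η) hq), ← map_add]
  rfl

theorem hs_X (hq : q ∈ Q.Rl) (x) : Q.hs q o (Q.X0 o ξ x) = Q.X0 o ξ (Q.hs q o x) :=
  ext_dense (H.op.den o) (f := fun x => Q.hs q o (Q.X0 o ξ x))
    (g := fun x => Q.X0 o ξ (Q.hs q o x)) (by fun_prop) (by fun_prop) (fun z => by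
      rw [← S.i, ← S.j1 z.1 z.2, H.hs_spec (Rl_le hq), H.hs_spec (Rl_le hq), ← S.j0, map_zero,
        H.d_X S (H.sm_gr (Rl_le hq)) (fun η _ h => H.eqv_gr h (H.gr.ph o η) hq)]) x

theorem L0_X (y) : Q.L0 o (Q.X1 o ξ y) = Q.X0 o ξ (Q.L0 o y) :=
  ext_dense (H.op.den1 o) (f := fun y => Q.L0 o (Q.X1 o ξ y))
    (g := fun y => Q.X0 o ξ (Q.L0 o y)) (by fun_prop) (by fun_prop) (fun z => by
      have h := H.ext_X S (zero_mem _) z
      rw [show Q.F 0 o = Q.F0 o from funext fun v => by simp [F, H.gr_zero]] at h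
      rw [← S.j1 z.1 z.2, H.op.L0, H.op.L0]
      exact (congrArg _ h).trans (S.j0 _ _)) y

theorem s_X (j) : Q.XE o ξ (Q.τ (.re j) o 0) = (2 : ℝ) • Q.τ (.im j) o 0 ∧
    Q.XE o ξ (Q.τ (.im j) o 0) = (-2 : ℝ) • Q.τ (.re j) o 0 := by
  have key : ∀ (a b : Bs Bc Bw B2) (c : ℝ), (∀ v, Q.b o (Q.τ a o v) (Q.XC o ξ v) = c * Q.f b o v) →
      Q.XE o ξ (Q.τ a o 0) = (-c) • Q.τ b o 0 := fun a b c h => H.op.extE fun u => by
    have h1 := (((Q.b o).hasFDerivAt.comp 0 ((H.sm.sm a o).differentiable (by simp)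
      0).hasFDerivAt).clm_apply (Q.XC o ξ).hasFDerivAt).unique
      (((H.sm.grad b o 0).const_mul c).congr_of_eventuallyEq (.of_forall h))
    simpa [H.skewE S] using congrArg (fun l : Q.C o →L[ℝ] ℝ => l u) h1
  exact ⟨by simpa using key _ _ (-2) fun v => by simpa [H.dd_X S] using (H.s_dd j v (-ξ, 1)).1,
    key _ _ 2 fun v => by simpa [H.dd_X S] using (H.s_dd j v (-ξ, 1)).2⟩

end Ax

end GM

end Crest.Agent.X212.Crt72
end
end

-- ▼ part X212/Crt72/Loc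
section

/-!
# Row 212, CRIT (helper72): the local theory in a chart
-/

set_option autoImplicit false
set_option linter.unusedSectionVars false
noncomputable section
open Set Filter Topology Function
open scoped ContDiff InnerProductSpace

namespace Crest.Agent.X212.Crt72
open Fred93 Sard93
open ContinuousLinearMap (fst snd inl inr)

section
variable {Z Y P : Type*} [NormedAddCommGroup Z] [NormedSpace ℝ Z] [CompleteSpace Z]
  [NormedAddCommGroup Y] [NormedSpace ℝ Y] [CompleteSpace Y]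
  [NormedAddCommGroup P] [NormedSpace ℝ P] [CompleteSpace P]

theorem cont_prod {X : Type*} [TopologicalSpace X] {f : X → Z →L[ℝ] Y} {g : X → Z →L[ℝ] P}
    (hf : Continuous f) (hg : Continuous g) : Continuous fun x => (f x).prod (g x) :=
  (ContinuousLinearMap.prodₗᵢ ℝ).continuous.comp (hf.prodMk hg)

/-- local Sard with one more multiplier -/
theorem sard_ext {B : Y →L[ℝ] Z →L[ℝ] ℝ} {ι T : Z →L[ℝ] Y} (h : SY B ι T) (hn : ∀ z, 0 ≤ B (ι z) z)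
    {π : Z →L[ℝ] Z}
    {π' : Y →L[ℝ] Y} (hp : PJ B ι T π π') (hp' : ∀ y, π' (π' y) = π' y) {Φ : Z × P → Y}
    (hΦ : ContDiff ℝ ∞ Φ) {p₀ : P} (h0 : Φ (0, p₀) = 0) (hT : dE Φ (0, p₀) = T)
    (hπ : ∀ p, π' (Φ (0, p)) = Φ (0, p)) {w : Z} (hw : π w = w) (c : ℝ)
    (ho : ∀ k (s : ℝ), T k + s • ι w = 0 → B (ι w) k + c * s = 0 → π k = k →
      (∀ e, B (fderiv ℝ Φ (0, p₀) (0, e)) k = 0) → k = 0 ∧ s = 0) :
    ∃ N ∈ 𝓝 ((0 : Z), p₀), ∀ᶠ p in residual P, ∀ z, (z, p) ∈ N → π z = z → Φ (z, p) = 0 →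
      B (ι w) z = 0 → ∀ n, π n = n → dE Φ (z, p) n = 0 → B (ι w) n = 0 → n = 0 := by
  let B₁ : Y × ℝ →L[ℝ] Z × ℝ →L[ℝ] ℝ := B.bilinearComp (fst ℝ Y ℝ) (fst ℝ Z ℝ) +
    (ContinuousLinearMap.mul ℝ ℝ).bilinearComp (snd ℝ Y ℝ) (snd ℝ Z ℝ)
  have hB : ∀ y z, B₁ y z = B y.1 z.1 + y.2 * z.2 := fun _ _ => rfl
  let K : Z × ℝ →L[ℝ] Y × ℝ := ((snd ℝ Z ℝ).smulRight (ι w)).prod (B (ι w) ∘L fst ℝ Z ℝ + c • snd ℝ Z ℝ)
  have hK : ∀ z, K z = (z.2 • ι w, B (ι w) z.1 + c * z.2) := fun _ => rfl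
  let T₁ : Z × ℝ →L[ℝ] Y × ℝ := inl ℝ Y ℝ ∘L T ∘L fst ℝ Z ℝ + K
  have hT₁ : ∀ z, T₁ z = (T z.1 + z.2 • ι w, B (ι w) z.1 + c * z.2) := fun z => by
    simp [T₁, hK]
  let m : (Z × ℝ) × P →L[ℝ] Z × P := (fst ℝ Z ℝ).prodMap (ContinuousLinearMap.id ℝ P)
  let Ψ : (Z × ℝ) × P → Y × ℝ := fun z => inl ℝ Y ℝ (Φ (m z)) + (K ∘L fst ℝ _ P) z
  have hd : ∀ z x, fderiv ℝ Ψ z x = (fderiv ℝ Φ (m z) (m x), 0) + K x.1 := fun z x =>
    congrArg (fun l : (Z × ℝ) × P →L[ℝ] Y × ℝ => l x)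
      (((inl ℝ Y ℝ).hasFDerivAt.comp z ((hΦ.differentiable
        (by simp) _).hasFDerivAt.comp z m.hasFDerivAt)).add (K ∘L fst ℝ _ P).hasFDerivAt).fderiv
  have hw' : ∀ z, B (ι w) (π z) = B (ι w) z := fun z => by rw [← hp.B, hp.ι, hw]
  obtain ⟨N, hN, hr⟩ := sard_pj (B := B₁) (ι := ι.prodMap (ContinuousLinearMap.id ℝ ℝ)) (T := T₁)
    (π := π.prodMap (ContinuousLinearMap.id ℝ ℝ)) (π' := π'.prodMap (ContinuousLinearMap.id ℝ ℝ))
    (Φ := Ψ) (p₀ := p₀)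
    ⟨fun z z' => by simp only [hB, hT₁, map_add, map_smul, add_apply, smul_apply, smul_eq_mul,
        h.symT z.1]; ring,
      fun z z' => by simp [hB, h.symι z.1, mul_comm],
      fun z hz => by
        have h1 := (add_eq_zero_iff_of_nonneg (hn z.1) (mul_self_nonneg z.2)).1 hz
        exact Prod.ext (h.pos _ h1.1) (mul_self_eq_zero.1 h1.2),
      ((h.fr.prodMap_id (G := ℝ)).add_compact (T := (snd ℝ Z ℝ).smulRight (ι w, c - 1) +
        (B (ι w) ∘L fst ℝ Z ℝ).smulRight (0, 1)) ((cpt_smulRight _ _).add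
          (cpt_smulRight _ _))).congr fun z => by ext <;> simp [hT₁]; ring⟩
    ⟨fun z => Prod.ext (hp.pp _) rfl, fun z => by simp [hT₁, hp.T, hp.ι, hw, hw'],
      fun z => Prod.ext (hp.ι _) rfl, fun y z => by simp [hB, hp.B]⟩ (fun y => Prod.ext (hp' _) rfl)
    (((inl ℝ Y ℝ).contDiff.comp (hΦ.comp m.contDiff)).add
      (K ∘L fst ℝ _ P).contDiff) (by simp [Ψ, m, h0])
    (ContinuousLinearMap.ext fun z => by simp [dE_apply, hd, hT₁, hK, m, ← hT])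
    (fun p => by simp [Ψ, m, hπ]) fun k h1 h2 h3 => by
      rw [hT₁, Prod.mk_eq_zero] at h1
      have := ho k.1 k.2 h1.1 h1.2 (congrArg Prod.fst h2) fun e => by
        simpa [hd, hB, m] using h3 e
      exact Prod.ext this.1 this.2
  have hc : Continuous fun z : Z × P => ((z.1, (0 : ℝ)), z.2) := by fun_prop
  refine ⟨_, hc.continuousAt.preimage_mem_nhds hN, ?_⟩
  filter_upwards [hr] with p hp1 z h1 h2 h3 h4 n h5 h6 h7
  exact congrArg Prod.fst (hp1 (z, 0) h1 (by simp [h2]) (by simp [Ψ, m, h3, hK, h4]) (n, 0)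
    (by simp [h5]) (by simpa [dE_apply, hd, hK, m, h7] using h6))

end

namespace GM
variable {Bc Bw B2 : Type} {Q : GM Bc Bw B2}

variable (Q) in
/-- a chart at `o` for the stratum `P` -/
structure Ch (o : Q.X) (w : Q.C o) (π : Q.C o →L[ℝ] Q.C o) (P : Q.C o → Prop) (t : Prop) :
    Prop where
  sl : ∀ N ∈ 𝓝 (0 : Q.C o), ∀ᶠ v in 𝓝 0, ∃ η, Q.act o η v ∈ N ∧ Q.σ o (Q.act o η v) = 0 ∧
    Q.b o (Q.ic o w) (Q.act o η v) = 0
  inv : ∀ η v, P v → P (Q.act o η v)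
  near : ∀ᶠ v in 𝓝 0, Q.σ o v = 0 → P v → π v = v ∧ ∀ u, (t → Q.Tn o v u) → ∃ η n,
    u = Q.dd o v η + n ∧ π n = n ∧ Q.σ o n = 0 ∧ Q.b o (Q.ic o w) n = 0
  tn : ∀ n, π n = n → t → Q.Tn o 0 n
  tr : ∀ η, Q.σ o (Q.dd o 0 η) = 0 → Q.b o (Q.ic o w) (Q.dd o 0 η) = 0 → Q.dd o 0 η = 0

variable (Q) in
/-- the data for the local Sard theorem -/
def Ch2 (o : Q.X) (w : Q.C o) (π : Q.C o →L[ℝ] Q.C o) : Prop :=
  ∃ (c : ℝ) (πM : Q.M o →L[ℝ] Q.M o) (πE : Q.E o →L[ℝ] Q.E o) (πH : Q.H o →L[ℝ] Q.H o),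
    (∀ q ∈ Q.Rl, PJ (Q.BB o) (Q.ι o) (Q.ext o (fderiv ℝ (Q.F q o) 0)) (π.prodMap πM)
      (πE.prodMap πH) ∧ πE (Q.F q o 0) = Q.F q o 0) ∧
    (∀ y, πE.prodMap πH (πE.prodMap πH y) = πE.prodMap πH y) ∧ π w = w ∧
    ∀ u m (s : ℝ), (∀ η, Q.b o (Q.D o m + s • Q.ic o w) (Q.dd o 0 η) = 0) →
      Q.b o (Q.ic o w) u + c * s = 0 → m = 0 ∧ s = 0

variable (Q) in
/-- all linear conditions -/
def lo {κ : Type} (o : Q.X) (w : Q.C o) (π : Q.C o →L[ℝ] Q.C o) (A : Q.C o →L[ℝ] Q.E o)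
    (R : κ → Q.C o →L[ℝ] ℝ) : Q.C o →L[ℝ] (Q.E o × Q.H o) × (Q.C o × ℝ) × (κ → ℝ) :=
  (A.prod (Q.σ o)).prod (((ContinuousLinearMap.id ℝ _ - π).prod (Q.b o (Q.ic o w))).prod
    (ContinuousLinearMap.pi R))

theorem lo_apply {κ : Type} (o : Q.X) (w π A) (R : κ → Q.C o →L[ℝ] ℝ) (u) : Q.lo o w π A R u =
    ((A u, Q.σ o u), (u - π u, Q.b o (Q.ic o w) u), fun j => R j u) := rfl

/-- the empty family -/
def nil : Empty → Q.Fd := Empty.elim

/-- finite dimensional families of perturbations -/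
def fam {κ : Type} [Fintype κ] (q : Q.Fd) (g : κ → Q.Fd) (p : κ → ℝ) : Q.Fd := q + ∑ w, p w • g w

theorem fam_mem {κ : Type} [Fintype κ] {q : Q.Fd} {g : κ → Q.Fd} {S : Subalgebra ℝ Q.Fd}
    (hq : q ∈ S) (hg : ∀ w, g w ∈ S) (p) : fam q g p ∈ S :=
  add_mem hq (sum_mem fun w _ => S.smul_mem (hg w) _)

theorem Ch.sl' {o w π P t} (C : Q.Ch o w π P t) {X : Type*} [TopologicalSpace X] {p₀ : X}
    {R : Q.C o × X → Prop} (h : ∀ᶠ z in 𝓝 (0, p₀), R z) :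
    ∀ᶠ z in 𝓝 ((0 : Q.C o), p₀), ∃ η, R (Q.act o η z.1, z.2) ∧ Q.σ o (Q.act o η z.1) = 0 ∧
      Q.b o (Q.ic o w) (Q.act o η z.1) = 0 := by
  obtain ⟨N, hN, U, hU, hs⟩ := mem_nhds_prod_iff.1 h
  filter_upwards [prod_mem_nhds (C.sl N hN) hU] with z hz
  obtain ⟨η, h1, h2⟩ := hz.1
  exact ⟨η, hs (mk_mem_prod h1 hz.2), h2⟩

namespace Ax
variable (H : Q.Ax) {κ κ' : Type} [Fintype κ] [Fintype κ'] {q : Q.Fd} {g : κ → Q.Fd}
  {g' : κ' → Q.Fd} {o : Q.X} {w : Q.C o} {π : Q.C o →L[ℝ] Q.C o} {P : Q.C o → Prop} {t : Prop}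
include H

theorem F_fam (hq : q ∈ Q.Bl) (hg : ∀ w, g w ∈ Q.Bl) (p o v) :
    Q.F (fam q g p) o v = Q.F q o v + ∑ w, p w • Q.gr (g w) o v := by
  rw [F, fam, H.gr_add hq (sum_mem fun w _ => Subalgebra.smul_mem _ (hg w) _), H.gr_sum _ hg]
  simp [F, add_assoc]

theorem sm_fam (hq : q ∈ Q.Bl) (hg : ∀ w, g w ∈ Q.Bl) (o) :
    ContDiff ℝ ∞ fun z : Q.C o × (κ → ℝ) => Q.F (fam q g z.2) o z.1 := by
  simp only [H.F_fam hq hg]
  exact ((H.sm_F hq o).comp contDiff_fst).add (ContDiff.sum fun w _ =>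
    ((contDiff_apply ℝ ℝ w).comp contDiff_snd).smul ((H.sm_gr (hg w) o).comp contDiff_fst))

theorem low (hq : q ∈ Q.Rl) (C : Q.Ch o w π P t) (hO : Q.On t q g' o 0) : ∃ c > (0 : ℝ), ∀ u,
    ‖u‖ ≤ c * ‖Q.lo o w π (fderiv ℝ (Q.F q o) 0) (fun j => Q.b o (Q.gr (g' j) o 0)) u‖ := by
  have e : ∀ A, A.prod (Q.σ o) = Q.ext o A ∘L inl ℝ (Q.C o) (Q.M o) := fun A => by
    ext <;> simp [ext_apply]
  rw [lo, e]
  refine low_of_fr (H.sy (Rl_le hq) o).fr.1 _ (fun u => by simp) _ fun u h1 h2 => ?_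
  have h3 : π u = u := (sub_eq_zero.1 (congrArg (·.1.1) h2)).symm
  obtain ⟨η, rfl⟩ := hO u (by simpa [ext_apply] using congrArg Prod.fst h1) (C.tn u h3)
    fun j => congrFun (congrArg Prod.snd h2) j
  exact C.tr η (congrArg Prod.snd h1) (congrArg (·.1.2) h2)

theorem on_of (hq : q ∈ Q.Rl) (hg' : ∀ w, g' w ∈ Q.Rl) {v} (hv : Q.F q o v = 0)
    (h1 : ∀ u, (t → Q.Tn o v u) → ∃ η n,
      u = Q.dd o v η + n ∧ π n = n ∧ Q.σ o n = 0 ∧ Q.b o (Q.ic o w) n = 0)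
    (h2 : ∀ n, fderiv ℝ (Q.F q o) v n = 0 → π n = n → Q.σ o n = 0 → Q.b o (Q.ic o w) n = 0 →
      (∀ j, Q.b o (Q.gr (g' j) o v) n = 0) → n = 0) : Q.On t q g' o v := fun u a1 a2 a3 => by
  obtain ⟨η, n, rfl, b1, b2, b3⟩ := h1 u a2
  rw [h2 n (by rwa [map_add, H.dF_dd hq hv, zero_add] at a1) b1 b2 b3 fun j => by
    simpa [H.gr_dd (hg' j)] using a3 j, add_zero]
  exact ⟨η, rfl⟩

/-- **openness** -/
theorem on_open (hq : q ∈ Q.Rl) (hg : ∀ w, g w ∈ Q.Rl) (hg' : ∀ w, g' w ∈ Q.Rl)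
    (C : Q.Ch o w π P t) {p₀ : κ → ℝ} (hO : Q.On t (fam q g p₀) g' o 0) :
    ∀ᶠ z in 𝓝 ((0 : Q.C o), p₀), P z.1 → Q.F (fam q g z.2) o z.1 = 0 →
      Q.On t (fam q g z.2) g' o z.1 := by
  obtain ⟨c, hc, hl⟩ := H.low (fam_mem hq hg p₀) C hO
  have hs := H.sm_fam (Rl_le hq) (fun w => Rl_le (hg w)) o
  have e : ∀ z : Q.C o × (κ → ℝ), fderiv ℝ (Q.F (fam q g z.2) o) z.1 = dE _ z := fun z =>
    (dE_eq_fderiv (hs.differentiable (by simp) _)).symm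
  have hA : Continuous fun z : Q.C o × (κ → ℝ) => Q.lo o w π (fderiv ℝ (Q.F (fam q g z.2) o) z.1)
      fun j => Q.b o (Q.gr (g' j) o z.1) := by
    have h1 : Continuous fun z : Q.C o × (κ → ℝ) => fderiv ℝ (Q.F (fam q g z.2) o) z.1 := by
      simp only [e]; exact (hs.continuous_fderiv (by simp)).clm_comp continuous_const
    have h2 : ∀ j, Continuous fun z : Q.C o × (κ → ℝ) => Q.b o (Q.gr (g' j) o z.1) := fun j =>
      (Q.b o).continuous.comp ((H.sm_gr (Rl_le (hg' j)) o).continuous.comp continuous_fst)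
    exact cont_prod (cont_prod h1 continuous_const) (cont_prod continuous_const
      ((ContinuousLinearMap.piEquivL ℝ _ _).continuous.comp (continuous_pi h2)))
  have h1 := (hA.tendsto (0, p₀)).eventually (ev_inj hc hl)
  filter_upwards [C.sl' (h1.and (continuous_fst.continuousAt.eventually C.near))] with z hz h2 h3
  obtain ⟨η, ⟨h4, h5⟩, h6, -⟩ := hz
  obtain ⟨A, hA⟩ := H.gr.mor o η
  have hm := fam_mem hq hg z.2
  refine H.on_mor hA (H.gr.ph o η) hm hg' (H.on_of hm hg'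
    ((H.eqv_zero (H.eqv_F hA (H.gr.ph o η) hm) _).2 h3) (h5 h6 (C.inv η _ h2)).2
    fun n a1 a2 a3 a4 a5 => h4 n ?_)
  simp [lo_apply, a1, a2, a3, a4, a5, Prod.mk_zero_zero, Pi.zero_def]

/-- **isolation** -/
theorem iso (hq : q ∈ Q.Rl) (C : Q.Ch o w π P t) (h0 : Q.F q o 0 = 0) (hO : Q.On t q nil o 0) :
    ∀ᶠ v in 𝓝 (0 : Q.C o), P v → Q.F q o v = 0 → ∃ η, Q.act o η v = 0 := by
  obtain ⟨c, hc, hl⟩ := H.low hq C hO
  have hd : HasStrictFDerivAt (fun z : Q.C o × ℝ => (Q.F q o z.1, Q.σ o z.1))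
      ((fderiv ℝ (Q.F q o) 0).prod (Q.σ o) ∘L fst ℝ _ _) (0, 0) :=
    (((H.sm_F (Rl_le hq) o).contDiffAt.hasStrictFDerivAt (by simp)).prodMk
      (Q.σ o).hasStrictFDerivAt).comp (0, 0) hasStrictFDerivAt_fst
  have h1 := eq_of_low hd (fun _ => by simp [h0]) hc hl
  have h2 := (Continuous.prodMk_left (0 : ℝ)).continuousAt.eventually
    (C.sl' (h1.and (continuous_fst.continuousAt.eventually C.near)))
  filter_upwards [h2] with v hv h3 h4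
  obtain ⟨η, ⟨h5, h6⟩, h7, h8⟩ := hv
  obtain ⟨A, hA⟩ := H.gr.mor o η
  refine ⟨η, h5 (Prod.ext ((H.eqv_zero (H.eqv_F hA (H.gr.ph o η) hq) _).2 h4) h7) ?_⟩
  exact Prod.ext (Prod.ext (sub_eq_zero.2 (h6 h7 (C.inv η _ h3)).1.symm) h8) (Subsingleton.elim _ _)

/-- **local Sard** -/
theorem loc (hq : q ∈ Q.Rl) (hg : ∀ w, g w ∈ Q.Rl) (C : Q.Ch o w π P t) (C2 : Q.Ch2 o w π)
    {p₀ : κ → ℝ} (h0 : Q.F (fam q g p₀) o 0 = 0) (hO : Q.On t (fam q g p₀) g o 0) :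
    ∃ N ∈ 𝓝 ((0 : Q.C o), p₀), ∀ᶠ p in residual (κ → ℝ), ∀ v, (v, p) ∈ N → P v →
      Q.F (fam q g p) o v = 0 → Q.On t (fam q g p) nil o v := by
  obtain ⟨c, πM, πE, πH, a1, a2, a3, a4⟩ := C2
  have hm := fam_mem hq hg
  have hs := H.sm_fam (Rl_le hq) (fun w => Rl_le (hg w)) o
  let m : (Q.C o × Q.M o) × (κ → ℝ) →L[ℝ] Q.C o × (κ → ℝ) :=
    (fst ℝ _ _).prodMap (ContinuousLinearMap.id ℝ _)
  let Φ : (Q.C o × Q.M o) × (κ → ℝ) → Q.E o × Q.H o := fun z =>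
    inl ℝ (Q.E o) (Q.H o) (Q.F (fam q g (m z).2) o (m z).1) + (Q.ext o 0 ∘L fst ℝ _ _) z
  have hd : ∀ z x, fderiv ℝ Φ z x = (fderiv ℝ (fun z : Q.C o × (κ → ℝ) =>
      Q.F (fam q g z.2) o z.1) (m z) (m x), 0) + Q.ext o 0 x.1 := fun z x =>
    congrArg (fun l : (Q.C o × Q.M o) × (κ → ℝ) →L[ℝ] Q.E o × Q.H o => l x)
      (((inl ℝ (Q.E o) (Q.H o)).hasFDerivAt.comp z ((hs.differentiable
        (by simp) _).hasFDerivAt.comp z m.hasFDerivAt)).add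
        (Q.ext o 0 ∘L fst ℝ _ _).hasFDerivAt).fderiv
  have hE : ∀ z p, dE Φ (z, p) = Q.ext o (fderiv ℝ (Q.F (fam q g p) o) z.1) := fun z p =>
    ContinuousLinearMap.ext fun x => by
      rw [dE_apply, hd, ← dE_eq_fderiv (G := fun z : Q.C o × (κ → ℝ) => Q.F (fam q g z.2) o z.1)
        (hs.differentiable (by simp) _), ext_apply o _ x.1 x.2, ext_apply o _ x.1 x.2]
      simp [m, dE_apply]
  have hP : ∀ e, fderiv ℝ (fun z : Q.C o × (κ → ℝ) => Q.F (fam q g z.2) o z.1) (0, p₀) (0, e) =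
      ∑ w, e w • Q.gr (g w) o 0 := fun e => by
    have h1 := (hs.differentiable (by simp) (0, p₀)).hasFDerivAt.comp p₀
      (hasFDerivAt_prodMk_right 0 p₀)
    have h2 : HasFDerivAt (fun p => Q.F q o 0 + ∑ w, p w • Q.gr (g w) o 0) (∑ w,
        (ContinuousLinearMap.proj w : (κ → ℝ) →L[ℝ] ℝ).smulRight (Q.gr (g w) o 0)) p₀ :=
      (HasFDerivAt.fun_sum fun w _ => (hasFDerivAt_apply w p₀).smul_const _).const_add _
    simpa [sum_apply] using congrArg (fun l : (κ → ℝ) →L[ℝ] Q.E o => l e) (h1.unique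
      (h2.congr_of_eventuallyEq (.of_forall fun p =>
        H.F_fam (Rl_le hq) (fun w => Rl_le (hg w)) p o 0)))
  have hw : ∀ z, Q.BB o (Q.ι o (w, 0)) z = Q.b o (Q.ic o w) z.1 := fun z => by
    rw [← H.op.pair']; simp [ι]
  obtain ⟨N, hN, hr⟩ := sard_ext (H.sy (Rl_le (hm p₀)) o) (fun z => by
      rw [BB_apply, H.op.ij']; exact real_inner_self_nonneg) (a1 _ (hm p₀)).1 a2 (Φ := Φ)
    (((inl ℝ (Q.E o) (Q.H o)).contDiff.comp (hs.comp m.contDiff)).add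
      (Q.ext o 0 ∘L fst ℝ _ (κ → ℝ)).contDiff)
    (by simp [Φ, m, h0]) (hE 0 p₀) (fun p => by simp [Φ, m, (a1 _ (hm p)).2]) (w := (w, 0))
    (by simp [a3]) c fun k s b1 b2 b3 b4 => by
      have c1 := congrArg Prod.fst b1
      have c2 : Q.σ o k.1 = 0 := by simpa [ext_apply o _ k.1 k.2, ι] using congrArg Prod.snd b1
      simp only [ext_apply o _ k.1 k.2, ι, Prod.fst_add, Prod.smul_fst, Prod.fst_zero,
        ContinuousLinearMap.coe_prodMap', Prod.map_fst] at c1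
      rw [hw] at b2
      obtain ⟨c3, rfl⟩ := a4 k.1 k.2 s (fun η => by
        rw [add_assoc, add_eq_zero_iff_neg_eq] at c1
        rw [← c1, map_neg, neg_apply, H.sym_dF (Rl_le (hm p₀)), H.dF_dd (hm p₀) h0]
        simp) b2
      obtain ⟨η, c4⟩ := hO k.1 (by simpa [c3] using c1) (C.tn _ (congrArg Prod.fst b3)) fun j => by
        classical
        have := b4 (Pi.single j 1)
        rw [hd] at this
        simpa [m, hP, H.op.pair', Pi.single_apply] using this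
      exact ⟨Prod.ext (c4 ▸ C.tr η (c4 ▸ c2) (by simpa [c4] using b2)) c3, rfl⟩
  have hc : Continuous fun z : Q.C o × (κ → ℝ) => ((z.1, (0 : Q.M o)), z.2) := by fun_prop
  refine ⟨_, C.sl' ((Eventually.and (hc.continuousAt.preimage_mem_nhds hN))
    (continuous_fst.continuousAt.eventually C.near)), ?_⟩
  filter_upwards [hr] with p hp v hv h2 h3
  obtain ⟨η, ⟨h4, h5⟩, h6, h7⟩ := hv
  obtain ⟨A, hA⟩ := H.gr.mor o η
  have h8 := (H.eqv_zero (H.eqv_F hA (H.gr.ph o η) (hm p)) _).2 h3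
  have h9 := h5 h6 (C.inv η _ h2)
  refine H.on_mor hA (H.gr.ph o η) (hm p) (fun e => e.elim) (H.on_of (hm p) (fun e => e.elim) h8
    h9.2 fun n a1 a2 a3 a4 _ => congrArg Prod.fst (hp (_, 0) h4 (by simp [h9.1])
      (by simp [Φ, m, h8, ext_apply, h6]) ((hw _).trans h7) (n, 0) (by simp [a2])
      (by simp [hE, ext_apply, a1, a3]) ((hw _).trans a4)))

end Ax

end GM

end Crest.Agent.X212.Crt72
end
end

-- ▼ part X212/Crt72/Cht
section

/-!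
# Row 212, CRIT (helper72): the three charts, compactness
-/

set_option autoImplicit false
set_option linter.unusedSectionVars false
noncomputable section
open Set Filter Topology Function
open scoped ContDiff InnerProductSpace

namespace Crest.Agent.X212.Crt72.GM
open Fred93
open ContinuousLinearMap (fst snd inl inr)

variable {Bc Bw B2 : Type} {Q : GM Bc Bw B2}

theorem Ch.mono {o w π P t} (C : Q.Ch o w π P t) {P' : Q.C o → Prop} (h : ∀ v, P' v → P v)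
    (hi : ∀ η v, P' v → P' (Q.act o η v)) : Q.Ch o w π P' t :=
  ⟨C.sl, hi, C.near.mono fun v hv h1 h2 => hv h1 (h v h2), C.tn, C.tr⟩

namespace Ax
variable (H : Q.Ax) {o : Q.X}
include H

theorem dbij (hb : Bijective (Q.σ o ∘L Q.d o 0)) :
    ∀ᶠ v in 𝓝 (0 : Q.C o), Bijective (Q.σ o ∘L Q.d o v) :=
  (continuous_const.clm_comp (H.gr.cd o)).continuousAt.eventually (isOpen_bij.mem_nhds hb)

theorem sl0 (hb : Bijective (Q.σ o ∘L Q.d o 0)) : ∀ N ∈ 𝓝 (0 : Q.C o), ∀ᶠ v in 𝓝 0, ∃ η,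
    Q.act o η v ∈ N ∧ Q.σ o (Q.act o η v) = 0 ∧ Q.b o (Q.ic o 0) (Q.act o η v) = 0 := fun N hN => by
  let m : Q.L o × Q.C o →L[ℝ] (Q.L o × ℝ) × Q.C o :=
    (inl ℝ _ _).prodMap (ContinuousLinearMap.id ℝ _)
  have h1 : HasStrictFDerivAt (fun z : Q.L o × Q.C o => Q.act o (z.1, 0) z.2)
      ((Q.d o 0).coprod (ContinuousLinearMap.id ℝ _)) (0, 0) :=
    ((H.gr.strict o 0).comp (0, 0) m.hasStrictFDerivAt).congr_fderiv
      (by ext <;> simp [m, dd_apply])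
  filter_upwards [slice h1 (H.gr.act0 o 0) hb hN] with v ⟨ξ, h⟩
  exact ⟨(ξ, 0), h.1, h.2, by simp⟩

theorem tr0 (hb : Bijective (Q.σ o ∘L Q.d o 0)) (hf : Q.Fixv o 0) (η)
    (h : Q.σ o (Q.dd o 0 η) = 0) : Q.dd o 0 η = 0 := by
  obtain ⟨ξ, hξ⟩ := hf
  rw [dd_apply, ← hξ, ← map_smul, ← map_add] at h ⊢
  rw [(injective_iff_map_eq_zero _).1 hb.1 _ h, map_zero]

theorem chFull (hb : Bijective (Q.σ o ∘L Q.d o 0)) (hf : Q.Fixv o 0) :
    Q.Ch o 0 (ContinuousLinearMap.id ℝ _) (fun _ => True) False where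
  sl := H.sl0 hb
  inv _ _ := id
  near := (H.dbij hb).mono fun v hv _ _ => ⟨rfl, fun u _ => by
    obtain ⟨η, hη⟩ := hv.2 (Q.σ o u)
    exact ⟨(η, 0), u - Q.d o v η, by simp [dd_apply], rfl, by simpa [sub_eq_zero] using hη.symm,
      by simp⟩⟩
  tn _ _ := False.elim
  tr η h _ := H.tr0 hb hf η h

theorem kerM (hb : Bijective (Q.σ o ∘L Q.d o 0)) {m}
    (h : ∀ η, Q.b o (Q.D o m) (Q.d o 0 η) = 0) : m = 0 := by
  obtain ⟨η, hη⟩ := hb.2 (Q.ih o m)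
  have h1 := (H.adj o (Q.d o 0 η) m).trans (h η)
  rw [show Q.σ o (Q.d o 0 η) = _ from hη] at h1
  exact congrArg Prod.snd (H.op.posι (z := (0, m)) (by simpa [ι] using h1))

theorem chFix {ξ l} (S : Q.Spl o ξ l) (hl : l ≠ 0) (hb : Bijective (Q.σ o ∘L Q.d o 0)) :
    Q.Ch o 0 (pk0 (Q.XC o ξ) l) (Q.Fixv o) True ∧ Q.Ch2 o 0 (pk0 (Q.XC o ξ) l) := by
  have h0 : Q.d o 0 ξ = Q.J o 0 := (sub_eq_zero.1 ((S.C 0).symm.trans (map_zero _))).symm
  refine ⟨⟨H.sl0 hb, fun η v => ((H.gr.mor o η).choose_spec.fix_iff v).2,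
    (H.dbij hb).mono fun v hv h1 ⟨ξ', h2⟩ => ?_, fun n hn _ ξ' h1 => ?_,
    fun η h _ => H.tr0 hb ⟨ξ, h0⟩ η h⟩, 1, pk0 (Q.XM o ξ) l, pk0 (Q.XE o ξ) l, pk0 (Q.XH o ξ) l, ?_⟩
  · have hi := (injective_iff_map_eq_zero _).1 hv.1
    have h3 : ξ' = ξ := sub_eq_zero.1 (hi _ (by
      rw [ContinuousLinearMap.comp_apply, map_sub, h2, ← S.C, H.σ_X S, h1, map_zero]))
    subst h3
    have h4 : Q.XC o ξ' v = 0 := by rw [S.C, h2, sub_self]
    refine ⟨pk0_of l h4, fun u hu => ?_⟩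
    obtain ⟨η, hη⟩ := hv.2 (Q.σ o u)
    have h5 : Q.XC o ξ' u = 0 := by
      have := S.C (v + u)
      rwa [hu trivial ξ' h2, sub_self, map_add, h4, zero_add] at this
    have h6 : Q.XL o ξ' η = 0 := hi _ (by
      rw [ContinuousLinearMap.comp_apply, ← S.d v η h4, H.σ_X S, show Q.σ o (Q.d o v η) = _ from hη,
        ← H.σ_X S, h5, map_zero])
    exact ⟨(η, 0), u - Q.d o v η, by simp [dd_apply], pk0_of l (by
      rw [map_sub, h5, S.d v η h4, h6, map_zero, sub_self]), by simpa [sub_eq_zero] using hη.symm,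
      by simp⟩
  · obtain rfl : ξ' = ξ := hb.1 (congrArg (Q.σ o) (h1.trans h0.symm))
    rw [zero_add, eq_comm, ← sub_eq_zero, ← S.C, ← hn, X_pk0 hl (H.cubeC S)]
  have eZ : (pk0 (Q.XC o ξ) l).prodMap (pk0 (Q.XM o ξ) l) = pk0 ((Q.XC o ξ).prodMap (Q.XM o ξ)) l :=
    ContinuousLinearMap.ext fun _ => rfl
  have eY : (pk0 (Q.XE o ξ) l).prodMap (pk0 (Q.XH o ξ) l) = pk0 ((Q.XE o ξ).prodMap (Q.XH o ξ)) l :=
    ContinuousLinearMap.ext fun _ => rfl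
  rw [eZ, eY]
  refine ⟨fun q hq => ⟨⟨fun z => pk0_of l (X_pk0 hl (H.cubeZ S) z), pk0_comm l (H.ext_X S hq),
    pk0_comm l (H.ι_X S), fun y z => ?_⟩, pk0_of l (H.X_F0 S hq)⟩,
    fun y => pk0_of l (X_pk0 hl (H.cubeY S) y), map_zero _, fun u m s h1 h2 =>
      ⟨H.kerM hb fun η => by simpa [dd_apply] using h1 (η, 0), by simpa using h2⟩⟩
  simp only [pk0_apply, map_add, map_smul, add_apply, smul_apply, H.skewY S, neg_neg]

theorem bb_pos {u} (h : Q.b o (Q.ic o u) u = 0) : u = 0 :=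
  congrArg Prod.fst (H.op.posι (z := (u, 0)) (by rw [← h, ← H.op.pair' o _ (u, 0)]; simp [ι]))

theorem b_d {u} (h : Q.σ o u = 0) (η) : Q.b o (Q.ic o (Q.d o 0 η)) u = 0 := by
  rw [← H.op.Dim, ← H.adj, h]; simp [Prod.mk_zero_zero]

theorem cdd : Continuous (Q.dd o) :=
  (ContinuousLinearMap.coprodEquivL (𝕜 := ℝ) (F := ℝ) ℝ).continuous.comp ((H.gr.cd o).prodMk
    ((ContinuousLinearMap.smulRightL ℝ ℝ (Q.C o) (ContinuousLinearMap.id ℝ ℝ)).continuous.comp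
      (H.gr.cJ o)))

theorem free_bij (hf : ¬Q.Fixv o 0) :
    Bijective ((Q.σ o).prod (Q.b o (Q.ic o (Q.J o 0))) ∘L Q.dd o 0) := by
  have hb := H.op.bij o (.inl fun h => hf ⟨0, by simp [h]⟩)
  have key : ∀ η, Q.σ o (Q.dd o 0 η) = 0 → Q.b o (Q.ic o (Q.dd o 0 η)) (Q.dd o 0 η) =
      η.2 * Q.b o (Q.ic o (Q.J o 0)) (Q.dd o 0 η) := fun η h => by
    nth_rewrite 1 [dd_apply]
    simp [H.b_d h]
  have hi : ∀ η, Q.dd o 0 η = 0 → η = 0 := fun η h => by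
    have h2 : η.2 = 0 := by
      by_contra h2
      refine hf ⟨-η.2⁻¹ • η.1, ?_⟩
      rw [dd_apply] at h
      rw [map_smul, eq_neg_of_add_eq_zero_left h, smul_neg, neg_smul, neg_neg, inv_smul_smul₀ h2]
    exact Prod.ext (hb.1 (by simpa [dd_apply, h2] using congrArg (Q.σ o) h)) h2
  refine ⟨(injective_iff_map_eq_zero _).2 fun η h => hi η (H.bb_pos (by
    rw [key η (congrArg Prod.fst h), show Q.b o _ (Q.dd o 0 η) = 0 from congrArg Prod.snd h,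
      mul_zero])), fun y => ?_⟩
  obtain ⟨ξ, hξ⟩ := hb.2 (-Q.σ o (Q.J o 0))
  obtain ⟨ξ', hξ'⟩ := hb.2 y.1
  have h1 : Q.σ o (Q.dd o 0 (ξ, 1)) = 0 := by
    simpa [dd_apply, add_eq_zero_iff_eq_neg] using hξ
  have h2 : Q.b o (Q.ic o (Q.J o 0)) (Q.dd o 0 (ξ, 1)) ≠ 0 := fun h =>
    one_ne_zero (congrArg Prod.snd (hi _ (H.bb_pos (by rw [key _ h1, h, mul_zero]))))
  refine ⟨(ξ', 0) + ((y.2 - Q.b o (Q.ic o (Q.J o 0)) (Q.dd o 0 (ξ', 0))) /
    Q.b o (Q.ic o (Q.J o 0)) (Q.dd o 0 (ξ, 1))) • (ξ, 1), ?_⟩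
  rw [map_add, map_smul]
  refine Prod.ext ?_ ?_
  · simpa [h1, dd_apply o 0 (ξ', 0)] using hξ'
  · simp [h2]

theorem free_ev (hf : ¬Q.Fixv o 0) : ∀ᶠ v in 𝓝 (0 : Q.C o),
    Bijective ((Q.σ o).prod (Q.b o (Q.ic o (Q.J o 0))) ∘L Q.dd o v) :=
  (continuous_const.clm_comp H.cdd).continuousAt.eventually (isOpen_bij.mem_nhds (H.free_bij hf))

/-- the fixed points are closed -/
theorem fix_closed (h : ∃ᶠ v in 𝓝 0, Q.Fixv o v) : Q.Fixv o 0 := by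
  by_contra hf
  obtain ⟨v, ⟨ξ, h1⟩, h2⟩ := (h.and_eventually (H.free_ev hf)).exists
  exact one_ne_zero (congrArg Prod.snd (h2.1 (a₁ := (-ξ, 1)) (a₂ := 0) (by simp [dd_apply, h1])))

theorem chFree (hf : ¬Q.Fixv o 0) :
    Q.Ch o (Q.J o 0) (ContinuousLinearMap.id ℝ _) (fun _ => True) True ∧
      Q.Ch2 o (Q.J o 0) (ContinuousLinearMap.id ℝ _) := by
  have hb := H.op.bij o (.inl fun h => hf ⟨0, by simp [h]⟩)
  have hB := H.free_bij hf
  set σ' := (Q.σ o).prod (Q.b o (Q.ic o (Q.J o 0)))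
  refine ⟨⟨fun N hN => ?_, fun _ _ => id,
    (H.free_ev hf).mono fun v hv _ _ => ⟨rfl, fun u _ => ?_⟩, fun _ _ _ ξ h => (hf ⟨ξ, h⟩).elim,
    fun η h1 h2 => by
      rw [(injective_iff_map_eq_zero _).1 hB.1 η (Prod.ext h1 h2), map_zero]⟩, 0, ContinuousLinearMap.id ℝ _, ContinuousLinearMap.id ℝ _,
    ContinuousLinearMap.id ℝ _, fun q _ => ⟨⟨fun _ => rfl, fun _ => rfl, fun _ => rfl,
      fun _ _ => rfl⟩, rfl⟩, fun _ => rfl, rfl, fun u m s h _ => ?_⟩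
  · filter_upwards [slice (H.gr.strict o 0) (H.gr.act0 o 0) hB hN] with v ⟨η, h⟩
    exact ⟨η, h.1, congrArg Prod.fst h.2, congrArg Prod.snd h.2⟩
  · obtain ⟨η, hη⟩ := hv.2 (σ' u)
    have h : σ' (u - Q.dd o v η) = 0 := by rw [map_sub, ← hη, sub_eq_zero]; rfl
    exact ⟨η, _, (add_sub_cancel _ _).symm, rfl, congrArg Prod.fst h, congrArg Prod.snd h⟩
  · obtain ⟨η, hη⟩ := hB.2 (0, 1)
    have h1 := h η
    rw [map_add, add_apply, ← H.adj, show Q.σ o (Q.dd o 0 η) = 0 from congrArg Prod.fst hη, map_smul,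
      smul_apply, show Q.b o _ (Q.dd o 0 η) = 1 from congrArg Prod.snd hη] at h1
    have h2 : s = 0 := by simpa [Prod.mk_zero_zero] using h1
    exact ⟨H.kerM hb fun η => by simpa [dd_apply, h2] using h (η, 0), h2⟩

/-- **compactness** -/
theorem cpt {κ ι : Type} [Fintype κ] {q : Q.Fd} {g : κ → Q.Fd} (hq : q ∈ Q.Rl)
    (hg : ∀ w, g w ∈ Q.Rl) (𝒰 : Ultrafilter ι) {p : ι → κ → ℝ} {p₀} (hp : Tendsto p 𝒰 (𝓝 p₀))
    {x : ι → Q.X} (hx : ∀ᶠ n in (𝒰 : Filter ι), Q.Sol (fam q g (p n)) (x n)) :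
    ∃ (o : Q.X) (v : ι → Q.C o), Tendsto v 𝒰 (𝓝 0) ∧ (∀ᶠ n in (𝒰 : Filter ι), Q.Rep o (v n) (x n)) ∧
      Q.Sol (fam q g p₀) o := by
  classical
  have key : ∀ r ∈ Q.Bl, ∃ (S : Finset (Bs Bc Bw B2)) (c : Bs Bc Bw B2 → Q.X → ℝ) (R : ℝ),
      (∀ j o, |c j o| ≤ R) ∧ ∀ S' ⊇ S, ∀ o, Q.gr r o 0 = ∑ j ∈ S', c j o • Q.τ j o 0 := fun r hr => by
    obtain ⟨S, c, h1, h2⟩ := H.gr_exp hr
    choose R hR using fun j => H.bdd (h1 j)
    refine ⟨S, fun j o => if j ∈ S then c j o 0 else 0, ∑ j ∈ S, |R j|, fun j o => ?_,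
      fun S' hS o => ?_⟩
    · dsimp only
      split_ifs with h
      · exact (hR j o).trans ((le_abs_self _).trans
          (Finset.single_le_sum (f := fun j => |R j|) (fun _ _ => abs_nonneg _) h))
      · simpa using Finset.sum_nonneg fun _ _ => abs_nonneg _
    · rw [h2, ← Finset.sum_subset hS fun j _ hj => by simp [hj]]
      exact Finset.sum_congr rfl fun j hj => by simp [hj]
  obtain ⟨S₀, c₀, R₀, a1, a2⟩ := key q (Rl_le hq)
  choose S c R b1 b2 using fun w => key (g w) (Rl_le (hg w))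
  have hG := hx.and (hp.eventually (Metric.closedBall_mem_nhds p₀ one_pos))
  obtain ⟨n₀, h₀⟩ := hG.exists
  let r : ι → ι := fun n => if Q.Sol (fam q g (p n)) (x n) ∧ p n ∈ Metric.closedBall p₀ 1 then n
    else n₀
  have hr : ∀ n, Q.Sol (fam q g (p (r n))) (x (r n)) ∧ p (r n) ∈ Metric.closedBall p₀ 1 :=
    fun n => by simp only [r]; split_ifs with h; exacts [h, h₀]
  obtain ⟨o, v, h1, h2⟩ := H.cp (S₀ ∪ Finset.univ.biUnion S) (R₀ + ∑ w, (‖p₀‖ + 1) * R w) ι 𝒰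
    (fun n j => c₀ j (x (r n)) + ∑ w, p (r n) w * c w j (x (r n))) (x ∘ r)
    (fun n j => (abs_add_le _ _).trans (add_le_add (a1 _ _) ((Finset.abs_sum_le_sum_abs _ _).trans
      (Finset.sum_le_sum fun w _ => (abs_mul _ _).trans_le (mul_le_mul ((norm_le_pi_norm (p (r n)) w).trans
        (norm_le_of_mem_closedBall (hr n).2)) (b1 _ _ _) (abs_nonneg _) (by positivity))))))
    fun n => by
      have h := (hr n).1
      rw [Sol, H.F_fam (Rl_le hq) fun w => Rl_le (hg w), F, a2 _ Finset.subset_union_left] at h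
      rw [← h, add_assoc]
      simp only [add_smul, Finset.sum_add_distrib, Finset.sum_smul, comp_apply]
      rw [Finset.sum_comm]
      refine congrArg _ (congrArg _ (Finset.sum_congr rfl fun w _ => ?_))
      rw [b2 w _ ((Finset.subset_biUnion_of_mem S (Finset.mem_univ w)).trans
        (Finset.subset_union_right (s₁ := S₀))), Finset.smul_sum]
      simp only [mul_smul]
  have h3 : ∀ᶠ n in (𝒰 : Filter ι), Q.Rep o (v n) (x n) := by
    filter_upwards [h2, hG] with n h3 h4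
    simpa [r, h4] using h3
  refine ⟨o, v, h1, h3, tendsto_nhds_unique (((H.sm_fam (Rl_le hq) (fun w => Rl_le (hg w))
    o).continuous.tendsto _).comp (h1.prodMk_nhds hp)) (tendsto_const_nhds.congr' ?_)⟩
  filter_upwards [h3, hx] with n h4 h5
  obtain ⟨T, A, ζ, c1, c2, c3⟩ := H.gr.rep o _ _ h4
  exact (c3 ▸ (H.eqv_zero (H.eqv_F c1 c2 (fam_mem hq hg _)) 0).2 h5).symm

end Ax

end Crest.Agent.X212.Crt72.GM
end
end

-- ▼ part X212/Crt72/Stage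
section

/-!
# Row 212, CRIT (helper72): one stage of the perturbation
-/

set_option autoImplicit false
set_option linter.unusedSectionVars false
noncomputable section
open Set Filter Topology Function Module
open scoped ContDiff InnerProductSpace

namespace Crest.Agent.X212.Crt72

theorem exists_finset_sep {V W : Type*} [AddCommGroup V] [Module ℝ V] (K : Submodule ℝ V)
    [FiniteDimensional ℝ K] (l : W → V →ₗ[ℝ] ℝ) (h : ∀ k ∈ K, (∀ w, l w k = 0) → k = 0) :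
    ∃ J : Finset W, ∀ k ∈ K, (∀ w ∈ J, l w k = 0) → k = 0 := by
  classical
  let N : Finset W → Submodule ℝ V := fun J => K ⊓ ⨅ w ∈ J, (l w).ker
  have hN : ∀ J k, k ∈ N J ↔ k ∈ K ∧ ∀ w ∈ J, l w k = 0 := fun J k => by simp [N]
  obtain ⟨J, hJ⟩ := exists_minimalFor_of_wellFoundedLT (fun _ => True)
    (fun J => finrank ℝ (N J)) ⟨∅, trivial⟩
  refine ⟨J, fun k h1 h2 => h k h1 fun w => ?_⟩
  have : FiniteDimensional ℝ (N J) := Submodule.finiteDimensional_of_le inf_le_left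
  have h3 : N (insert w J) ≤ N J := fun x hx =>
    (hN _ _).2 ⟨((hN _ _).1 hx).1, fun a ha => ((hN _ _).1 hx).2 a (Finset.mem_insert_of_mem ha)⟩
  have h4 := Submodule.eq_of_le_of_finrank_le h3 (hJ.le_of_le trivial (Submodule.finrank_mono h3))
  exact ((hN _ _).1 (h4 ▸ (hN _ _).2 ⟨h1, h2⟩)).2 w (Finset.mem_insert_self _ _)

namespace GM
variable {Bc Bw B2 : Type} {Q : GM Bc Bw B2}

variable (Q) in
/-- the neighbourhoods of a point -/
def Near (o : Q.X) : Filter Q.X :=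
  map Prod.snd (comap Prod.fst (𝓝 (0 : Q.C o)) ⊓ 𝓟 {z | Q.Rep o z.1 z.2})

theorem near_prod {X : Type*} [TopologicalSpace X] {p₀ : X} {o : Q.X} {N : Set (Q.C o × X)}
    (hN : N ∈ 𝓝 (0, p₀)) :
    {z : X × Q.X | ∃ v, Q.Rep o v z.2 ∧ (v, z.1) ∈ N} ∈ 𝓝 p₀ ×ˢ Q.Near o := by
  obtain ⟨V, hV, U, hU, hs⟩ := mem_nhds_prod_iff.1 hN
  refine mem_of_superset (prod_mem_prod hU (show {x | ∃ v ∈ V, Q.Rep o v x} ∈ Q.Near o from
    mem_inf_principal.2 (mem_of_superset (preimage_mem_comap hV) fun z h1 h2 => ⟨_, h1, h2⟩))) ?_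
  rintro ⟨p, x⟩ ⟨h1, v, h2, h3⟩
  exact ⟨v, h3, hs (mk_mem_prod h2 h1)⟩

variable (Q) in
/-- a complete list of the critical points in a stratum -/
def Cls (q : Q.Fd) (P : Q.X → Prop) {ι : Type} (x : ι → Q.X) : Prop :=
  (∀ n, P (x n) ∧ Q.Sol q (x n)) ∧ (∀ n m, Q.eqv (x n) (x m) → n = m) ∧
    ∀ y, P y → Q.Sol q y → ∃ n, Q.eqv y (x n)

/-- the affine space of a stage -/
def Sp {W : Type} (q₀ : Q.Fd) (g : W → Q.Fd) (q : Q.Fd) : Prop :=
  ∃ r ∈ Submodule.span ℝ (range g), q = q₀ + r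

variable (Q) in
/-- the hypotheses of a stage -/
structure Stg (P : ∀ o, Q.C o → Prop) (q₀ : Q.Fd) {W : Type} (g : W → Q.Fd) (Adm : Q.Fd → Prop) :
    Prop where
  q0 : q₀ ∈ Q.Rl
  hg : ∀ w, g w ∈ Q.Rl
  inv : ∀ o o' (T : Q.C o → Q.C o') A, Q.Mor T A → ∀ v, P o v → P o' (T v)
  adm0 : Adm q₀
  adm : ∀ (J : Finset W) p₀, Adm (fam q₀ (fun w : J => g w) p₀) →
    ∀ᶠ p in 𝓝 p₀, Adm (fam q₀ (fun w : J => g w) p)
  ch : ∀ q, Sp q₀ g q → Adm q → ∀ o, P o 0 → Q.Sol q o →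
    ∃ w π, Q.Ch o w π (P o) True ∧ Q.Ch2 o w π
  den : ∀ q, Sp q₀ g q → Adm q → ∀ o, P o 0 → Q.Sol q o → ∀ u ∈ Q.Smo o,
    fderiv ℝ (Q.F q o) 0 u = 0 → Q.Tn o 0 u → (∀ w, Q.b o (Q.gr (g w) o 0) u = 0) →
    ∃ η, u = Q.dd o 0 η
  lim : ∀ q, Sp q₀ g q → Adm q → ∀ o, ¬P o 0 → Q.Sol q o → (∃ᶠ v in 𝓝 0, P o v) →
    (∃ w π, Q.Ch o w π (fun _ => True) False) ∧ Q.On False q nil o 0

theorem sp_fam {W : Type} (q₀ : Q.Fd) (g : W → Q.Fd) (J : Finset W) (p) :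
    Sp q₀ g (fam q₀ (fun w : J => g w) p) :=
  ⟨_, sum_mem fun _ _ => Submodule.smul_mem _ _ (Submodule.subset_span ⟨_, rfl⟩), rfl⟩

theorem fam_nil (q : Q.Fd) (p) : fam q nil p = q := by simp [fam]

theorem On.mono {t t' : Prop} {q κ κ'} {g : κ → Q.Fd} {g' : κ' → Q.Fd} {o v} (h : Q.On t q g o v)
    (ht : t → t') (hg : ∀ w, ∃ w', g w = g' w') : Q.On t' q g' o v := fun u h1 h2 h3 =>
  h u h1 (fun e => h2 (ht e)) fun w => (hg w).choose_spec ▸ h3 _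

namespace Ax
variable (H : Q.Ax) {P : ∀ o, Q.C o → Prop} {q₀ : Q.Fd} {W : Type} {g : W → Q.Fd}
  {Adm : Q.Fd → Prop}
include H

theorem rep_sol {q} (hq : q ∈ Q.Rl) {o v x} (h : Q.Rep o v x) (hx : Q.Sol q x) : Q.F q o v = 0 := by
  obtain ⟨T, A, ζ, c1, c2, rfl⟩ := H.gr.rep o _ _ h
  exact (H.eqv_zero (H.eqv_F c1 c2 hq) 0).2 hx

theorem rep_on {q} (hq : q ∈ Q.Rl) {o v x} (h : Q.Rep o v x) {t κ} {g : κ → Q.Fd}
    (hg : ∀ w, g w ∈ Q.Rl) (hO : Q.On t q g o v) : Q.On t q g x 0 := by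
  obtain ⟨T, A, ζ, c1, c2, rfl⟩ := H.gr.rep o _ _ h
  exact H.on_mor c1 c2 hq hg hO

theorem rep_P (S : Q.Stg P q₀ g Adm) {o v x} (h : Q.Rep o v x) (hx : P x 0) : P o v := by
  obtain ⟨T, A, ζ, c1, -, rfl⟩ := H.gr.rep o _ _ h
  exact S.inv _ _ T A c1 0 hx

/-- finitely many generators suffice -/
theorem on_fin (S : Q.Stg P q₀ g Adm) {q} (hq : q ∈ Q.Rl) (h1 : Sp q₀ g q) (h2 : Adm q) {o}
    (h3 : P o 0) (h4 : Q.Sol q o) : ∃ J : Finset W, Q.On True q (fun w : J => g w) o 0 := by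
  obtain ⟨w, π, C, -⟩ := S.ch q h1 h2 o h3 h4
  have := (H.sy (Rl_le hq) o).fr.1.finite_ker
  let R := ((ContinuousLinearMap.id ℝ _ - π).prod (Q.b o (Q.ic o w))).prodMap
    (ContinuousLinearMap.id ℝ (Q.M o))
  have : FiniteDimensional ℝ ((Q.ext o (fderiv ℝ (Q.F q o) 0)).ker ⊓ R.ker :) :=
    Submodule.finiteDimensional_of_le inf_le_left
  obtain ⟨J, hJ⟩ := exists_finset_sep ((Q.ext o (fderiv ℝ (Q.F q o) 0)).ker ⊓ R.ker)
    (fun j => (Q.b o (Q.gr (g j) o 0) ∘L ContinuousLinearMap.fst ℝ _ (Q.M o)).toLinearMap)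
    fun k hk hw => by
      have a1 : k.2 = 0 := congrArg Prod.snd hk.2
      obtain ⟨η, hη⟩ := S.den q h1 h2 o h3 h4 k.1 (H.ker_smo (Rl_le hq) hk.1)
        (by simpa [ext_apply o _ k.1 k.2, a1] using congrArg Prod.fst hk.1)
        (C.tn _ (sub_eq_zero.1 (congrArg (·.1.1) hk.2)).symm trivial) hw
      exact Prod.ext (hη ▸ C.tr η (hη ▸ congrArg Prod.snd hk.1) (hη ▸ congrArg (·.1.2) hk.2)) a1
  refine ⟨J, H.on_of hq (fun w : J => S.hg w) h4 (C.near.self_of_nhds (map_zero _) h3).2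
    fun n a1 a2 a3 a4 a5 => congrArg Prod.fst (hJ (n, 0) ⟨?_, ?_⟩ fun w hw => a5 ⟨w, hw⟩)⟩
  · simp [ext_apply, a1, a3]
  · simp [R, a2, a4]

theorem lim_dich (S : Q.Stg P q₀ g Adm) {q} (h1 : Sp q₀ g q) (h2 : Adm q) {ι : Type}
    {𝒰 : Ultrafilter ι} {o} {v : ι → Q.C o} {x : ι → Q.X} (h3 : Q.Sol q o)
    (hv : Tendsto v 𝒰 (𝓝 0)) (hr : ∀ᶠ n in (𝒰 : Filter ι), Q.Rep o (v n) (x n))
    (hx : ∀ᶠ n in (𝒰 : Filter ι), P (x n) 0) (h : ¬P o 0) :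
    (∃ w π, Q.Ch o w π (fun _ => True) False) ∧ Q.On False q nil o 0 :=
  S.lim q h1 h2 o h h3 (hv.frequently ((hr.and hx).mono fun _ h => H.rep_P S h.1 h.2).frequently)

theorem stage_reg (S : Q.Stg P q₀ g Adm) : ∃ q ∈ Q.Rl, Sp q₀ g q ∧ Adm q ∧
    ∀ x, P x 0 → Q.Sol q x → Q.On True q nil x 0 := by
  classical
  have hm := fun (J : Finset W) => fam_mem S.q0 (g := fun w : J => g w) fun w => S.hg w
  let D : Fin93.Dat Q.Fd (Finset W) Unit (fun J => J → ℝ) fun _ => Q.X :=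
    ⟨fun J => fam q₀ fun w : J => g w, fun _ => 0, Adm, fun _ q x => P x 0 ∧ Q.Sol q x,
      fun _ q x => Q.On True q nil x 0, fun _ q x J => Q.On True q (fun w : J => g w) x 0,
      fun _ => Q.Near⟩
  have op : ∀ (J : Finset W) p₀ o {κ : Type} [Fintype κ] (g' : κ → Q.Fd), (∀ w, g' w ∈ Q.Rl) →
      Adm (D.ι J p₀) → D.Sol () (D.ι J p₀) o → Q.On True (D.ι J p₀) g' o 0 →
      ∀ᶠ z in 𝓝 p₀ ×ˢ Q.Near o, D.Sol () (D.ι J z.1) z.2 → Q.On True (D.ι J z.1) g' z.2 0 := by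
    intro J p₀ o κ _ g' hg' h1 h2 h3
    obtain ⟨w, π, C, -⟩ := S.ch _ (sp_fam q₀ g J p₀) h1 o h2.1 h2.2
    filter_upwards [near_prod (H.on_open S.q0 (fun w => S.hg _) hg' C h3)] with z ⟨v, a1, a2⟩ a3
    exact H.rep_on (hm J _) a1 hg' (a2 (H.rep_P S a1 a3.1) (H.rep_sol (hm J _) a1 a3.2))
  have hD : D.Hyp :=
    { stage := fun J J' h p => by
        obtain ⟨p', hp⟩ := Fin93.ext0_stage J J' h p
        exact ⟨p', by simp only [D, fam, ← Fin93.ext0_sum, hp]⟩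
      adm := S.adm
      mono := fun _ _ _ _ _ h hO => hO.mono id fun w => ⟨⟨w, h w.2⟩, rfl⟩
      dens := fun _ J p x h1 h2 => .inr (H.on_fin S (hm J p) (sp_fam q₀ g J p) h1 h2.1 h2.2)
      onto := fun _ J p o J' h1 h2 h3 => (op J p o _ (fun w => S.hg _) h1 h2 h3).curry.self_of_nhds
      reg := fun _ J p o h1 h2 h3 => op J p o nil (fun e => e.elim) h1 h2 h3
      loc := fun _ J p₀ o h1 h2 h3 => by
        obtain ⟨w, π, C, C2⟩ := S.ch _ (sp_fam q₀ g J p₀) h1 o h2.1 h2.2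
        obtain ⟨N, hN, hr⟩ := H.loc S.q0 (fun w => S.hg _) C C2 h2.2 h3
        refine ⟨_, near_prod hN, hr.mono fun p hp x ⟨v, a1, a2⟩ a3 => ?_⟩
        exact H.rep_on (hm J _) a1 (fun e => e.elim)
          (hp v a2 (H.rep_P S a1 a3.1) (H.rep_sol (hm J _) a1 a3.2))
      comp := fun _ J p₀ h1 _ 𝒰 h2 h3 => by
        obtain ⟨o, v, a1, a2, a3⟩ := H.cpt S.q0 (fun w => S.hg _) 𝒰 h2 (h3.mono fun _ h => h.2)
        by_cases h : P o 0
        · exact .inr ⟨o, ⟨h, a3⟩, tendsto_map.comp (f := fun n => (v n, n.2))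
            (tendsto_inf.2 ⟨tendsto_comap_iff.2 a1, tendsto_principal.2 a2⟩)⟩
        obtain ⟨⟨w, π, C⟩, b⟩ := H.lim_dich S (sp_fam q₀ g J p₀) h1 a3 a1 a2
          (h3.mono fun _ h => h.1) h
        left
        filter_upwards [(a1.prodMk_nhds h2).eventually
          (H.on_open S.q0 (fun w => S.hg _) (fun e => e.elim) C b), a2, h3] with z c1 c2 c3
        exact (H.rep_on (hm J _) c2 (fun e => e.elim)
          (c1 trivial (H.rep_sol (hm J _) c2 c3.2))).mono False.elim fun e => e.elim }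
  obtain ⟨J, -, p, h1, h2⟩ := hD.exists_good (J₀ := ∅) (p₀ := 0) (by simpa [D, fam] using S.adm0)
  exact ⟨_, hm J p, sp_fam q₀ g J p, h1, fun x a b => h2 () x ⟨a, b⟩⟩

theorem stage_fin (S : Q.Stg P q₀ g Adm) {q} (hq : q ∈ Q.Rl) (h1 : Sp q₀ g q) (h2 : Adm q)
    (h3 : ∀ x, P x 0 → Q.Sol q x → Q.On True q nil x 0) :
    ∃ (ι : Type) (_ : Fintype ι) (x : ι → Q.X), Q.Cls q (P · 0) x := by
  let s : Setoid {y // P y 0 ∧ Q.Sol q y} := ⟨fun a b => Q.eqv a.1 b.1,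
    fun _ => H.gr.refl _, H.gr.symm _ _, H.gr.trans _ _ _⟩
  let x : Quotient s → Q.X := fun n => n.out.1
  have hs : ∀ n m, Q.eqv (x n) (x m) → n = m := fun n m h => Quotient.out_equiv_out.1 h
  have : Finite (Quotient s) := by
    by_contra hi
    have := not_finite_iff_infinite.1 hi
    obtain ⟨o, v, a1, a2, a3⟩ := H.cpt hq (g := nil) (fun e => e.elim) (hyperfilter (Quotient s))
      (p := fun _ => 0) tendsto_const_nhds (x := x) (.of_forall fun n => by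
        rw [fam_nil]; exact n.out.2.2)
    rw [fam_nil] at a3
    have key : ∀ᶠ n in (hyperfilter (Quotient s) : Filter _), ∃ η, Q.act o η (v n) = 0 := by
      by_cases h : P o 0
      · obtain ⟨w, π, C, -⟩ := S.ch q h1 h2 o h a3
        filter_upwards [a1.eventually (H.iso hq C a3 (h3 o h a3)), a2] with n b1 b2
        exact b1 (H.rep_P S b2 n.out.2.1) (H.rep_sol hq b2 n.out.2.2)
      · obtain ⟨⟨w, π, C⟩, b⟩ := H.lim_dich S h1 h2 a3 a1 a2 (.of_forall fun n => n.out.2.1) h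
        filter_upwards [a1.eventually (H.iso hq C a3 b), a2] with n b1 b2
        exact b1 trivial (H.rep_sol hq b2 n.out.2.2)
    have h4 : {n | Q.eqv (x n) o} ∈ hyperfilter (Quotient s) := by
      filter_upwards [key, a2] with n ⟨η, b1⟩ b2 using H.gr.orb o _ _ η b2 b1
    exact Set.Finite.notMem_hyperfilter (Set.Subsingleton.finite fun n b1 m b2 =>
      hs n m (H.gr.trans _ _ _ b1 (H.gr.symm _ _ b2))) h4
  exact ⟨_, Fintype.ofFinite _, x, fun n => n.out.2, hs, fun y a b =>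
    ⟨Quotient.mk s ⟨y, a, b⟩, H.gr.symm _ _ (Quotient.mk_out (s := s) ⟨y, a, b⟩)⟩⟩

/-- **One stage.** -/
theorem stage (S : Q.Stg P q₀ g Adm) : ∃ q ∈ Q.Rl, Sp q₀ g q ∧ Adm q ∧
    (∀ x, P x 0 → Q.Sol q x → Q.On True q nil x 0) ∧
    ∃ (ι : Type) (_ : Fintype ι) (x : ι → Q.X), Q.Cls q (P · 0) x := by
  obtain ⟨q, h1, h2, h3, h4⟩ := H.stage_reg S
  exact ⟨q, h1, h2, h3, h4, H.stage_fin S h1 h2 h3 h4⟩

end Ax

end GM

end Crest.Agent.X212.Crt72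
end
end

-- ▼ part X212/Crt72/Three

/-!
# Row 212, CRIT (helper72): the three stages
-/

set_option autoImplicit false
set_option linter.unusedSectionVars false
noncomputable section
open Set Filter Topology Function Module
open scoped ContDiff InnerProductSpace

namespace Crest.Agent.X212.Crt72.GM
variable {Bc Bw B2 : Type} {Q : GM Bc Bw B2}

variable (Q) in
/-- type I -/
def PI (o : Q.X) (v : Q.C o) : Prop := Q.J o v = 0
variable (Q) in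
/-- type S -/
def PS (o : Q.X) (v : Q.C o) : Prop := Q.J o v ≠ 0 ∧ Q.Fixv o v
variable (Q) in
/-- free -/
def PF (o : Q.X) (v : Q.C o) : Prop := ¬Q.Fixv o v

variable (Q) in
/-- the extended Hessian is invertible -/
def Bij (q : Q.Fd) (o : Q.X) : Prop := Bijective (Op (Q.i o) (Q.L0 o) (Q.hs q o))

variable (Q) in
/-- small combinations of cyclic invariants -/
def Lc (R : Bc → ℝ) (q : Q.Fd) : Prop := ∃ (T : Type) (_ : Fintype T) (a : T → Bc) (p : T → ℝ),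
  q = ∑ j, p j • Q.f (.cy (a j)) ∧ ∑ j, |p j| * |R (a j)| < 1

theorem Lc.open {R : Bc → ℝ} {J : Finset Bc} {p₀ : J → ℝ}
    (h : Q.Lc R (fam 0 (fun w : J => Q.f (.cy w)) p₀)) :
    ∀ᶠ p in 𝓝 p₀, Q.Lc R (fam 0 (fun w : J => Q.f (.cy w)) p) := by
  obtain ⟨T, _, a, c, h1, h2⟩ := h
  have h3 : Continuous fun p : J → ℝ => ∑ j, |c j| * |R (a j)| + ∑ w, |p w - p₀ w| * |R w| := by
    fun_prop
  filter_upwards [h3.continuousAt.eventually (gt_mem_nhds (show _ < 1 by simpa using h2))] with p hp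
  refine ⟨T ⊕ J, inferInstance, Sum.elim a (↑), Sum.elim c (p - p₀), ?_, by simpa using hp⟩
  simp [← h1, fam, sub_smul]

theorem PI.fix {o v} (h : Q.PI o v) : Q.Fixv o v := ⟨0, by rw [map_zero, h]⟩

theorem sw_mem (j) : Q.f (.sw j) ∈ Q.Rl := Algebra.subset_adjoin (.inl (.inl (.inr ⟨j, rfl⟩)))
theorem cy_mem (j) : Q.f (.cy j) ∈ Q.Rl := Algebra.subset_adjoin (.inl (.inl (.inl ⟨j, rfl⟩)))

variable (Q) in
/-- `Re (conj s * s')`, `Im (conj s * s')` -/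
def hr (j k : B2) : Q.Fd := Q.f (.re j) * Q.f (.re k) + Q.f (.im j) * Q.f (.im k)
variable (Q) in
def hi (j k : B2) : Q.Fd := Q.f (.re j) * Q.f (.im k) - Q.f (.im j) * Q.f (.re k)

theorem hr_mem (j k) : Q.hr j k ∈ Q.Rl := Algebra.subset_adjoin (.inl (.inr ⟨(j, k), rfl⟩))
theorem hi_mem (j k) : Q.hi j k ∈ Q.Rl := Algebra.subset_adjoin (.inr ⟨(j, k), rfl⟩)

namespace Ax
variable (H : Q.Ax) {p q r : Q.Fd} {o : Q.X}
include H

/-- perturbations which vanish on `P` to the order `1` (`t` false) or `2` (`t` true) -/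
def Nv (P : ∀ o, Q.C o → Prop) (t : Prop) : Submodule ℝ Q.Fd where
  carrier := {r | r ∈ Q.Rl ∧ ∀ o v, P o v →
    r o v = 0 ∧ Q.gr r o v = 0 ∧ (t → fderiv ℝ (Q.gr r o) v = 0)}
  add_mem' := fun {a b} ha hb => ⟨add_mem ha.1 hb.1, fun o v h => by
    rw [H.dgr_add (Rl_le ha.1) (Rl_le hb.1), H.gr_add (Rl_le ha.1) (Rl_le hb.1)]
    obtain ⟨a1, a2, a3⟩ := ha.2 o v h
    obtain ⟨b1, b2, b3⟩ := hb.2 o v h
    exact ⟨by simp [a1, b1], by simp [a2, b2], fun e => by simp [a3 e, b3 e]⟩⟩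
  zero_mem' := ⟨zero_mem _, fun o v _ => by simp [H.gr_zero]⟩
  smul_mem' := fun c a ha => ⟨Subalgebra.smul_mem _ ha.1 c, fun o v h => by
    rw [H.dgr_smul c (Rl_le ha.1), H.gr_smul c (Rl_le ha.1)]
    obtain ⟨a1, a2, a3⟩ := ha.2 o v h
    exact ⟨by simp [a1], by simp [a2], fun e => by simp [a3 e]⟩⟩

variable {P : ∀ o, Q.C o → Prop} {t : Prop}

theorem mul_nv (hp : p ∈ H.Nv P False) (hr : r ∈ Q.Rl) (h : t → ∀ o v, P o v → r o v = 0) :
    p * r ∈ H.Nv P t := ⟨mul_mem hp.1 hr, fun o v e => by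
  obtain ⟨a1, a2, -⟩ := hp.2 o v e
  rw [H.dgr_mul (Rl_le hp.1) (Rl_le hr), H.gr_mul (Rl_le hp.1) (Rl_le hr)]
  exact ⟨by simp [a1], by simp [a1, a2], fun e' => by simp [a1, a2, h e' o v e]⟩⟩

theorem F_nv (hq : q ∈ Q.Rl) (hr : r ∈ H.Nv P t) {v} (h : P o v) :
    Q.gr (q + r) o v = Q.gr q o v ∧ Q.F (q + r) o v = Q.F q o v ∧ (q + r) o v = q o v := by
  simp [F, H.gr_add (Rl_le hq) (Rl_le hr.1), hr.2 o v h]

theorem on_nv (hq : q ∈ Q.Rl) (hr : r ∈ H.Nv P True) {v} (h : P o v) {t} (e : Q.On t q nil o v) :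
    Q.On t (q + r) nil o v := fun u h1 h2 _ => e u (by
  rwa [H.dF_eq (Rl_le (add_mem hq hr.1)), H.dgr_add (Rl_le hq) (Rl_le hr.1), (hr.2 o v h).2.2 trivial,
    add_zero, ← H.dF_eq (Rl_le hq)] at h1) h2 fun e => e.elim

theorem hs_nv (hq : q ∈ Q.Rl) (hr : r ∈ H.Nv P True) (h : P o 0) : Q.hs (q + r) o = Q.hs q o :=
  H.hs_eq (Rl_le (add_mem hq hr.1)) (by
    rw [H.dgr_add (Rl_le hq) (Rl_le hr.1), (hr.2 o 0 h).2.2 trivial, add_zero]
    exact H.hs_spec (Rl_le hq) o)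

theorem cls_nv (hq : q ∈ Q.Rl) (hr : r ∈ H.Nv P t) {P' : ∀ o, Q.C o → Prop}
    (h : ∀ o, P' o 0 → P o 0) {ι : Type} {x : ι → Q.X} (e : Q.Cls q (P' · 0) x) :
    Q.Cls (q + r) (P' · 0) x :=
  ⟨fun n => ⟨(e.1 n).1, (H.F_nv hq hr (h _ (e.1 n).1)).2.1.trans (e.1 n).2⟩, e.2.1,
    fun y a b => e.2.2 y a ((H.F_nv hq hr (h _ a)).2.1.symm.trans b)⟩

theorem sw_nv (j) : Q.f (.sw j) ∈ H.Nv Q.PI False := ⟨sw_mem j, fun o v h => by
  simpa [H.gr_f] using H.sm.van (.sw j) o v (by simp) h⟩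

theorem gr_hr (j k) (o v) : Q.gr (Q.hr j k) o v =
    (Q.f (.re j) o v • Q.τ (.re k) o v + Q.f (.re k) o v • Q.τ (.re j) o v) +
    (Q.f (.im j) o v • Q.τ (.im k) o v + Q.f (.im k) o v • Q.τ (.im j) o v) := by
  rw [hr, H.gr_add (mul_mem (f_mem _) (f_mem _)) (mul_mem (f_mem _) (f_mem _)),
    H.gr_mul (f_mem _) (f_mem _), H.gr_mul (f_mem _) (f_mem _)]
  simp only [H.gr_f]; rfl

theorem gr_hi (j k) (o v) : Q.gr (Q.hi j k) o v =
    (Q.f (.re j) o v • Q.τ (.im k) o v + Q.f (.im k) o v • Q.τ (.re j) o v) -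
    (Q.f (.im j) o v • Q.τ (.re k) o v + Q.f (.re k) o v • Q.τ (.im j) o v) := by
  rw [hi, sub_eq_add_neg, ← neg_one_smul ℝ (_ * _), H.gr_add (mul_mem (f_mem _) (f_mem _))
    (Subalgebra.smul_mem _ (mul_mem (f_mem _) (f_mem _)) _), H.gr_smul _ (mul_mem (f_mem _) (f_mem _)),
    H.gr_mul (f_mem _) (f_mem _), H.gr_mul (f_mem _) (f_mem _), neg_one_smul, ← sub_eq_add_neg]
  simp only [H.gr_f]; rfl

theorem hr_nv (j k) : Q.hr j k ∈ H.Nv Q.Fixv False := ⟨hr_mem j k, fun o v h => by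
  rw [H.gr_hr]; simp [hr, H.s_fix h]⟩

theorem ker_z (hq : q ∈ Q.Rl) (h0 : Q.Sol q o) (hb : Bijective (Q.σ o ∘L Q.d o 0)) {z}
    (hz : Q.ext o (fderiv ℝ (Q.F q o) 0) z = 0) :
    z.2 = 0 ∧ fderiv ℝ (Q.F q o) 0 z.1 = 0 ∧ Q.σ o z.1 = 0 := by
  have h1 : fderiv ℝ (Q.F q o) 0 z.1 + Q.D o z.2 = 0 := congrArg Prod.fst hz
  have h2 : z.2 = 0 := H.kerM hb fun η => by
    have := H.dF_dd hq h0 (η, 0)
    rw [dd_apply, zero_smul, add_zero] at this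
    rw [eq_neg_of_add_eq_zero_right h1, map_neg, neg_apply, H.sym_dF (Rl_le hq), this]
    simp
  exact ⟨h2, by simpa [h2] using h1, congrArg Prod.snd hz⟩

theorem on_of_bij (hq : q ∈ Q.Rl) (h0 : Q.Sol q o) (hb : Bijective (Q.σ o ∘L Q.d o 0))
    (h : Q.Bij q o) : Q.On False q nil o 0 := fun u h1 _ _ => by
  obtain ⟨η, hη⟩ := hb.2 (Q.σ o u)
  have h2 := H.dF_dd hq h0 (η, 0)
  have h3 : Q.σ o (Q.dd o 0 (η, 0)) = Q.σ o u := by simpa [dd_apply] using hη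
  have h4 : Q.j1 o (u - Q.dd o 0 (η, 0), 0) = Q.j1 o 0 := h.1 (by
    rw [H.op_j1 (Rl_le hq), ext_apply]; simp [h1, h2, h3, Prod.mk_zero_zero])
  exact ⟨_, sub_eq_zero.1 (congrArg Prod.fst (H.op.injZ (congrArg _ h4)))⟩

theorem tan_zero {ξ l} (S : Q.Spl o ξ l) (hl : l ≠ 0) (hb : Bijective (Q.σ o ∘L Q.d o 0))
    (h : Q.On True q nil o 0) {u} (h1 : fderiv ℝ (Q.F q o) 0 u = 0) (h2 : Q.σ o u = 0)
    (h3 : Q.XC o ξ u = 0) : u = 0 := by
  have C := (H.chFix S hl hb).1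
  obtain ⟨η, rfl⟩ := h u h1 (C.tn u (pk0_of l h3)) fun e => e.elim
  exact C.tr η h2 (by simp)

/-- nondegeneracy of all critical points of a stratum -/
theorem on_cls (hq : q ∈ Q.Rl) {ι : Type} {x : ι → Q.X} {P : Q.X → Prop} (e : Q.Cls q P x)
    (h : ∀ n, Q.On False q nil (x n) 0) {y} (h1 : P y) (h2 : Q.Sol q y) : Q.On False q nil y 0 := by
  obtain ⟨n, hn⟩ := e.2.2 y h1 h2
  exact H.rep_on hq ((H.gr.rep0 _ _).2 hn) (fun e => e.elim) (h n)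

theorem stageI (R₀ : Bc → ℝ) : ∃ q ∈ Q.Rl, Q.Lc R₀ q ∧
    (∀ x, Q.PI x 0 → Q.Sol q x → Q.SI x ∧ Q.On True q nil x 0) ∧
    ∃ (ι : Type) (_ : Fintype ι) (x : ι → Q.X), Q.Cls q (Q.PI · 0) x := by
  obtain ⟨c₀, hc, h0⟩ := H.nr
  have si : ∀ q x, (∃ c < c₀, ∀ x, ‖Q.j0 x (Q.gr q x 0, 0)‖ ≤ c) → Q.PI x 0 → Q.Sol q x → Q.SI x := by
    rintro q x ⟨c, h1, h2⟩ h3 h4
    by_contra h5
    have h6 := h0 x h3 h5
    rw [eq_neg_of_add_eq_zero_left h4, ← neg_zero (G := Q.H x), ← Prod.neg_mk, map_neg,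
      norm_neg] at h6
    linarith [h2 x]
  obtain ⟨q, h1, -, h2, h3, h4⟩ := H.stage (P := Q.PI) (q₀ := 0) (g := fun j => Q.f (.cy j))
    (Adm := fun q => (∃ c < c₀, ∀ x, ‖Q.j0 x (Q.gr q x 0, 0)‖ ≤ c) ∧ Q.Lc R₀ q)
    { q0 := zero_mem _
      hg := cy_mem
      inv := fun _ _ _ _ h v => (h.J_iff v).2
      adm0 := ⟨⟨0, hc, fun x => by simp [H.gr_zero, Prod.mk_zero_zero]⟩,
        Empty, inferInstance, Empty.elim, 0, by simp, by simp⟩
      adm := fun J p₀ ⟨⟨c, h1, h2⟩, hL⟩ => by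
        refine .and ?_ hL.open
        choose R hR using H.sm.bdτ
        have e : ∀ (p : J → ℝ) x, Q.j0 x (Q.gr (fam 0 (fun w : J => Q.f (.cy w)) p) x 0, 0) =
            ∑ w, p w • Q.j0 x (Q.τ (.cy w) x 0, 0) := fun p x => by
          rw [fam, zero_add, H.gr_sum _ fun w => f_mem _]
          simp only [← map_smul, ← map_sum, H.gr_f]
          congr 1
          ext <;> simp [Prod.fst_sum, Prod.snd_sum]
        have h3 : Continuous fun p : J → ℝ => c + ∑ w, |p w - p₀ w| * R w := by fun_prop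
        filter_upwards [h3.continuousAt.eventually (gt_mem_nhds (show _ < c₀ by simpa using h1))]
          with p hp
        refine ⟨_, hp, fun x => (norm_le_norm_add_norm_sub' _ _).trans (add_le_add (h2 x) ?_)⟩
        rw [e, e, ← Finset.sum_sub_distrib]
        refine norm_sum_le_of_le _ fun w _ => ?_
        rw [← sub_smul, norm_smul]
        exact mul_le_mul_of_nonneg_left (hR _ x) (abs_nonneg _)
      ch := fun q _ h1 o h2 h3 => by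
        have C := H.chFix (H.sp.I o h2) one_ne_zero (H.op.bij o (.inr (si q o h1.1 h2 h3)))
        exact ⟨_, _, C.1.mono (fun _ => PI.fix)
          fun η v => ((H.gr.mor o η).choose_spec.J_iff v).2, C.2⟩
      den := fun q _ h1 o h2 h3 u a1 _ a2 a3 => by
        obtain ⟨η, hη⟩ := H.dI o u a1 h2 (si q o h1.1 h2 h3)
          (by simpa using (a2 0 (by rw [map_zero, h2])).symm) fun j => by simpa [H.gr_f] using a3 j
        exact ⟨(η, 0), by simpa [dd_apply] using hη⟩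
      lim := fun q _ _ o h1 _ h2 => (h1 ((isClosed_eq (H.gr.cJ o)
        continuous_const).closure_subset (mem_closure_iff_frequently.2 h2))).elim }
  exact ⟨q, h1, h2.2, fun x a b => ⟨si q x h2.1 a b, h3 x a b⟩, h4⟩

/-- the generators `N ^ 2 a` -/
theorem den_sq {N : Q.Fd} (hN : N ∈ Q.Rl) (h0 : N o 0 ≠ 0) {u}
    (h : ∀ a : Q.Rl, Q.b o (Q.gr (N * (N * a)) o 0) u = 0) (hr : r ∈ Q.Rl) :
    Q.b o (Q.gr r o 0) u = 0 := by
  have h1 := h 1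
  have h2 := h ⟨r, hr⟩
  have hN' := Rl_le hN
  simp only [OneMemClass.coe_one, mul_one, H.gr_mul hN' hN', H.gr_mul hN' (Rl_le hr),
    H.gr_mul hN' (mul_mem hN' (Rl_le hr)), Pi.add_apply, Pi.smul_apply', map_add, map_smul, add_apply,
    smul_apply, smul_eq_mul, Pi.mul_apply] at h1 h2
  have h3 : Q.b o (Q.gr N o 0) u = 0 := (mul_eq_zero.1 (add_self_eq_zero.1 h1)).resolve_left h0
  simpa [h3, h0] using h2

theorem stageS (hq : q ∈ Q.Rl) (hI : ∀ x, Q.PI x 0 → Q.Sol q x → Q.SI x ∧ Q.On False q nil x 0) :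
    ∃ r ∈ H.Nv Q.PI True, (∀ x, Q.PS x 0 → Q.Sol (q + r) x → Q.On True (q + r) nil x 0) ∧
      ∃ (ι : Type) (_ : Fintype ι) (x : ι → Q.X), Q.Cls (q + r) (Q.PS · 0) x := by
  let g : Bw × Q.Rl → Q.Fd := fun j => Q.f (.sw j.1) * (Q.f (.sw j.1) * j.2)
  have hg : Submodule.span ℝ (range g) ≤ H.Nv Q.PI True := Submodule.span_le.2 (by
    rintro _ ⟨j, rfl⟩
    exact H.mul_nv (H.sw_nv _) (mul_mem (sw_mem _) j.2.2) fun _ o v h => by
      simp [((H.sw_nv j.1).2 o v h).1])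
  have inv : ∀ o o' (T : Q.C o → Q.C o') A, Q.Mor T A → ∀ v, Q.PS o v → Q.PS o' (T v) :=
    fun _ _ _ _ h v e => ⟨(h.J_iff v).not.2 e.1, (h.fix_iff v).2 e.2⟩
  obtain ⟨_, -, ⟨r, h1, rfl⟩, -, h3, h4⟩ := H.stage (P := Q.PS) (q₀ := q) (g := g)
    (Adm := fun _ => True)
    { q0 := hq
      hg := fun j => (hg (Submodule.subset_span ⟨j, rfl⟩)).1
      inv := inv
      adm0 := trivial
      adm := fun _ _ _ => .of_forall fun _ => trivial
      ch := fun _ _ _ o ⟨h1, ξ, h2⟩ _ => by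
        have C := H.chFix (H.sp.S o ξ h1 h2) two_ne_zero (H.op.bij o (.inl h1))
        exact ⟨_, _, C.1.mono (fun _ h => h.2)
          fun η => inv _ _ _ _ (H.gr.mor o η).choose_spec, C.2⟩
      den := fun _ _ _ o ⟨h1, ξ, h2⟩ _ u a1 _ a2 a3 => by
        obtain ⟨j, hj⟩ := H.dr.pos o h1
        have S := H.sp.S o ξ h1 h2
        have h3 : Q.XC o ξ u = 0 := by rw [S.C, ← zero_add u, a2 ξ h2, sub_self]
        have h4 : ∀ k, (∀ v, Q.Fixv o v → Q.f k o v = 0) → Q.b o (Q.τ k o 0) u = 0 := fun k hk => by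
          have h5 := (H.sm.grad k o 0).comp_hasDerivAt_of_eq (0 : ℝ)
            ((hasDerivAt_id (0 : ℝ)).smul_const u) (by simp)
          simpa using h5.unique ((hasDerivAt_const (0 : ℝ) (0 : ℝ)).congr_of_eventuallyEq
            (.of_forall fun s => hk _ ⟨ξ, (sub_eq_zero.1 ((S.C _).symm.trans (by simp [h3]))).symm⟩))
        obtain ⟨η, hη⟩ := H.dr.der o u a1 h1 fun k hk => by
          rcases k with k | k | k | k
          · exact (hk k rfl).elim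
          · exact H.gr_f (.sw k) ▸ H.den_sq (sw_mem j) hj (fun a => a3 (j, a)) (sw_mem k)
          · exact h4 _ fun v h => (H.s_fix h k).1
          · exact h4 _ fun v h => (H.s_fix h k).2
        exact ⟨(η, 0), by simpa [dd_apply] using hη⟩
      lim := by
        rintro _ ⟨r, hr, rfl⟩ - o h1 h2 h3
        have h4 := H.fix_closed (h3.mono fun _ h => h.2)
        have h5 : Q.PI o 0 := by_contra fun h => h1 ⟨h, h4⟩
        have h6 := hI o h5 ((H.F_nv hq (hg hr) h5).2.1.symm.trans h2)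
        exact ⟨⟨_, _, H.chFull (H.op.bij o (.inr h6.1)) h4⟩, H.on_nv hq (hg hr) h5 h6.2⟩ }
  exact ⟨r, hg h1, h3, h4⟩

theorem stageF (hq : q ∈ Q.Rl) (hI : ∀ x, Q.Fixv x 0 → Q.Sol q x →
    Bijective (Q.σ x ∘L Q.d x 0) ∧ Q.On False q nil x 0) :
    ∃ r ∈ H.Nv Q.Fixv True, (∀ x, Q.PF x 0 → Q.Sol (q + r) x → Q.On False (q + r) nil x 0) ∧
      ∃ (ι : Type) (_ : Fintype ι) (x : ι → Q.X), Q.Cls (q + r) (Q.PF · 0) x := by
  let g : B2 × Q.Rl → Q.Fd := fun j => Q.hr j.1 j.1 * (Q.hr j.1 j.1 * j.2)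
  have hg : Submodule.span ℝ (range g) ≤ H.Nv Q.Fixv True := Submodule.span_le.2 (by
    rintro _ ⟨j, rfl⟩
    exact H.mul_nv (H.hr_nv _ _) (mul_mem (hr_mem _ _) j.2.2) fun _ o v h => by
      simp [((H.hr_nv j.1 j.1).2 o v h).1])
  have inv : ∀ o o' (T : Q.C o → Q.C o') A, Q.Mor T A → ∀ v, Q.PF o v → Q.PF o' (T v) :=
    fun _ _ _ _ h v => (h.fix_iff v).not.2
  obtain ⟨_, -, ⟨r, h1, rfl⟩, -, h3, h4⟩ := H.stage (P := Q.PF) (q₀ := q) (g := g)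
    (Adm := fun _ => True)
    { q0 := hq
      hg := fun j => (hg (Submodule.subset_span ⟨j, rfl⟩)).1
      inv := inv
      adm0 := trivial
      adm := fun _ _ _ => .of_forall fun _ => trivial
      ch := fun _ _ _ o h1 _ => ⟨_, _, (H.chFree h1).1.mono (fun _ _ => trivial)
        fun η => inv _ _ _ _ (H.gr.mor o η).choose_spec, (H.chFree h1).2⟩
      den := fun _ _ _ o h1 _ u a1 _ _ a3 => by
        have h2 : Q.J o 0 ≠ 0 := fun h => h1 (PI.fix h)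
        have hJ : Q.dd o 0 (0, 1) = Q.J o 0 := by simp [dd_apply]
        have b1 : ∀ k, Q.b o (Q.τ (.sw k) o 0) (Q.J o 0) = 0 := fun k =>
          hJ ▸ H.gr_f (.sw k) ▸ H.gr_dd (sw_mem k) 0 _
        have b2 := fun k => hJ ▸ H.s_dd k (0 : Q.C o) (0, 1)
        obtain ⟨j, hj⟩ : ∃ j, Q.hr j j o 0 ≠ 0 := by
          by_contra hn
          push Not at hn
          have b3 := fun j => mul_self_add_mul_self_eq_zero.1 (hn j)
          obtain ⟨η, hη⟩ := H.dr.der o _ (H.gr.smoJ o) h2 fun k hk => by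
            rcases k with k | k | k | k
            exacts [(hk k rfl).elim, b1 k, by simp [b2, b3], by simp [b2, b3]]
          exact h1 ⟨η, hη.symm⟩
        have b3 := fun r => H.den_sq (r := r) (hr_mem j j) hj fun a => a3 (j, a)
        have b4 := fun k => b3 _ (hr_mem j k)
        have b5 := fun k => b3 _ (hi_mem j k)
        simp only [H.gr_hr, H.gr_hi, map_add, map_sub, map_smul, add_apply, sub_apply, smul_apply,
          smul_eq_mul] at b4 b5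
        set c := (Q.f (.re j) o 0 * Q.b o (Q.τ (.im j) o 0) u -
          Q.f (.im j) o 0 * Q.b o (Q.τ (.re j) o 0) u) / Q.hr j j o 0 / 2 with hc
        have hc' : c * 2 * (Q.f (.re j) o 0 * Q.f (.re j) o 0 + Q.f (.im j) o 0 * Q.f (.im j) o 0) =
            Q.f (.re j) o 0 * Q.b o (Q.τ (.im j) o 0) u -
              Q.f (.im j) o 0 * Q.b o (Q.τ (.re j) o 0) u := by
          rw [hc, div_mul_cancel₀ _ two_ne_zero]; exact div_mul_cancel₀ _ hj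
        obtain ⟨η, hη⟩ := H.dr.der o (u - c • Q.J o 0)
          (sub_mem a1 (Submodule.smul_mem _ _ (H.gr.smoJ o))) h2 fun k hk => by
          rw [map_sub, map_smul, smul_eq_mul]
          rcases k with k | k | k | k
          · exact (hk k rfl).elim
          · rw [b1, ← H.gr_f, b3 _ (sw_mem k)]; simp
          · rw [(b2 k).1]
            refine mul_left_cancel₀ hj ?_
            simp only [hr, Pi.add_apply, Pi.mul_apply]
            linear_combination Q.f (.re j) o 0 * b4 k - Q.f (.im j) o 0 * b5 k -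
              Q.f (.re k) o 0 / 2 * b4 j + Q.f (.im k) o 0 * hc'
          · rw [(b2 k).2]
            refine mul_left_cancel₀ hj ?_
            simp only [hr, Pi.add_apply, Pi.mul_apply]
            linear_combination Q.f (.im j) o 0 * b4 k + Q.f (.re j) o 0 * b5 k -
              Q.f (.im k) o 0 / 2 * b4 j - Q.f (.re k) o 0 * hc'
        exact ⟨(η, c), by rw [dd_apply, ← hη, sub_add_cancel]⟩
      lim := by
        rintro _ ⟨r, hr, rfl⟩ - o h1 h2 -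
        have h4 : Q.Fixv o 0 := not_not.1 h1
        have h6 := hI o h4 ((H.F_nv hq (hg hr) h4).2.1.symm.trans h2)
        exact ⟨⟨_, _, H.chFull h6.1 h4⟩, H.on_nv hq (hg hr) h4 h6.2⟩ }
  exact ⟨r, hg h1, fun x a b u c1 _ c2 => h3 x a b u c1 (fun _ ξ h => (a ⟨ξ, h⟩).elim) c2, h4⟩

end Ax

end Crest.Agent.X212.Crt72.GM
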